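import Crest.Agent.N218.Th.Gl
import Crest.Agent.N218.K.Defs
import Crest.Agent.R204.LineT4_357

/-!
# Row 218, D0: Thom bijection, local to global (FROZEN definitions and leaves)
-/

set_option autoImplicit false

open Crest.Agent.R204 Crest.Agent.R204.Ex837 Crest.Agent.R204.LineT357
open Crest.Agent.R204.K357 (K0)
open Crest.Agent.N218.K

namespace Crest.Agent.N218.Th

noncomputable section

section alg

variable (P A B C : Type) [NormedCommRing P] [NormedAlgebra ℂ P] [NormedCommRing A]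
  [NormedAlgebra ℂ A] [NormedCommRing B] [NormedAlgebra ℂ B] [NormedCommRing C] [NormedAlgebra ℂ C]

/-- pullback squares of normed algebras, `al` onto -/
structure Bq where
  p1 : P →ₐ[ℂ] A
  p2 : P →ₐ[ℂ] B
  al : A →ₐ[ℂ] C
  be : B →ₐ[ℂ] C
  ca : Continuous al
  cb : Continuous be
  comm : ∀ x, al (p1 x) = be (p2 x)
  lift : ∀ a b, al a = be b → ∃ x, p1 x = a ∧ p2 x = b
  inj : ∀ x y, p1 x = p1 y → p2 x = p2 y → x = y
  sur : Function.Surjective al

variable {P A B C}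

/-- the underlying square of rings -/
def Bq.sq (S : Bq P A B C) : Sq P A B C :=
  ⟨S.p1, S.p2, S.al, S.be, S.comm, S.lift, S.inj⟩

variable {P' A' B' C' : Type} [NormedCommRing P'] [NormedAlgebra ℂ P'] [NormedCommRing A']
  [NormedAlgebra ℂ A'] [NormedCommRing B'] [NormedAlgebra ℂ B'] [NormedCommRing C']
  [NormedAlgebra ℂ C']

/-- morphisms of squares -/
structure BqH (S : Bq P A B C) (S' : Bq P' A' B' C') where
  fP : P →ₐ[ℂ] P'
  fA : A →ₐ[ℂ] A'
  fB : B →ₐ[ℂ] B'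
  fC : C →ₐ[ℂ] C'
  cA : Continuous fA
  cB : Continuous fB
  cC : Continuous fC
  h1 : ∀ x, S'.p1 (fP x) = fA (S.p1 x)
  h2 : ∀ x, S'.p2 (fP x) = fB (S.p2 x)
  ha : ∀ x, S'.al (fA x) = fC (S.al x)
  hb : ∀ x, S'.be (fB x) = fC (S.be x)

/-- `K₀` of constant loops -/
abbrev cs (A : Type) [NormedCommRing A] [NormedAlgebra ℂ A] : KC A →+* KC (LA A) := KA LA.cst
/-- `K₀` of loops, functoriality -/
abbrev KL (φ : A →ₐ[ℂ] B) (h : Continuous φ) : KC (LA A) →+* KC (LA B) := KA (LA.map φ h)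

end alg

/-- algebraic form of a Thom class -/
def Bj {R T : Type} [CommRing R] [CommRing T] [Algebra ℂ R] [Algebra ℂ T] (p : R →ₐ[ℂ] T)
    (s : T →ₐ[ℂ] R) (l : KC T) : Prop :=
  (∀ a, KA p a * l = 0 → a = 0) ∧ ∀ x, KA s x = 0 → ∃ a, x = KA p a * l

/-- `Bj` and `Bj` for loops -/
def Bj2 {R T : Type} [NormedCommRing R] [NormedAlgebra ℂ R] [NormedCommRing T] [NormedAlgebra ℂ T]
    (p : R →ₐ[ℂ] T) (hp : Continuous p) (s : T →ₐ[ℂ] R) (hs : Continuous s) (l : KC T) : Prop :=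
  Bj p s l ∧ Bj (LA.map p hp) (LA.map s hs) (cs T l)

/-- the five lemma -/
def FIVE : Prop :=
  ∀ (P A B C P' A' B' C' : Type) [NormedCommRing P] [NormedAlgebra ℂ P] [NormedCommRing A]
    [NormedAlgebra ℂ A] [CompleteSpace A] [NormedCommRing B] [NormedAlgebra ℂ B] [CompleteSpace B]
    [NormedCommRing C] [NormedAlgebra ℂ C] [CompleteSpace C]
    [NormedCommRing P'] [NormedAlgebra ℂ P'] [NormedCommRing A']
    [NormedAlgebra ℂ A'] [CompleteSpace A'] [NormedCommRing B'] [NormedAlgebra ℂ B']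
    [NormedCommRing C'] [NormedAlgebra ℂ C'] [CompleteSpace C']
    (S : Bq P A B C) (S' : Bq P' A' B' C') (F : BqH S S') (G : BqH S' S) (l : KC P'),
    (∀ x, G.fP (F.fP x) = x) → (∀ x, G.fA (F.fA x) = x) → (∀ x, G.fB (F.fB x) = x) →
    (∀ x, G.fC (F.fC x) = x) → KA G.fP l = 0 →
    Bj2 F.fA F.cA G.fA G.cA (KA S'.p1 l) → Bj2 F.fB F.cB G.fB G.cB (KA S'.p2 l) →
    Bj2 F.fC F.cC G.fC G.cC (KA S'.be (KA S'.p2 l)) → Bj F.fP G.fP l

section sp

variable {X X' : Type} [TopologicalSpace X] [TopologicalSpace X']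

/-- cartesian (fibrewise bijective) maps of ex-spaces -/
def Cart {A : Ex X} {B : Ex X'} {g : C(X, X')} (F : Hm A B g) : Prop :=
  (∀ e e', A.p e = A.p e' → F.f e = F.f e' → e = e') ∧
    ∀ x b, g x = B.p b → ∃ e, A.p e = x ∧ F.f e = b

/-- `l` is a universal Thom class over `S` -/
def Un (B : Ex X) (l : KX B.E) (S : Set X) : Prop :=
  ∀ (Z : Type) [TopologicalSpace Z] [CompactSpace Z] [T2Space Z] (A : Ex Z) (g : C(Z, X))
    (F : Hm A B g), Cart F → (∀ z, g z ∈ S) → A.Th (pull F.f l)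

end sp

/-- local to global -/
def LOC : Prop :=
  ∀ (X : Type) [TopologicalSpace X] (B : Ex X) (l : KX B.E) (S T : Set X), B.Rd l → IsClosed S →
    IsClosed T → Un B l S → Un B l T → Un B l (S ∪ T)

/-- the two-sphere over a point -/
def S2 : Ex Unit where
  E := OnePoint ℂ
  p := ContinuousMap.const _ ()
  s := ContinuousMap.const _ OnePoint.infty
  ps _ := rfl

/-- Bott periodicity: a line on `S²` with frames `a` (on `ℂ`) and `b` (off `0`), `a = v b` -/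
def BASE : Prop :=
  ∀ (k : Type) [Fintype k] [DecidableEq k] (e : Matrix k k C(OnePoint ℂ, ℂ))
    (a a' : ℂ → k → ℂ) (b b' : OnePoint ℂ → k → ℂ), Continuous a → Continuous a' →
    ContinuousOn b {((0 : ℂ) : OnePoint ℂ)}ᶜ → ContinuousOn b' {((0 : ℂ) : OnePoint ℂ)}ᶜ →
    (∀ (v : ℂ) i j, e i j v = a v i * a' v j) → (∀ v, ∑ i, a' v i * a v i = 1) →
    (∀ v, v ≠ ((0 : ℂ) : OnePoint ℂ) → ∀ i j, e i j v = b v i * b' v j) →
    (∀ v, v ≠ ((0 : ℂ) : OnePoint ℂ) → ∑ i, b' v i * b v i = 1) →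
    ((∀ v : ℂ, v ≠ 0 → a v = v • b v) ∨ ∀ v : ℂ, v ≠ 0 → a v = v⁻¹ • b v) →
    Un S2 ((K0.cls e : KX (OnePoint ℂ)) - 1 : KX (OnePoint ℂ)) Set.univ

end

end Crest.Agent.N218.Th
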