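import Crest.Agent.N218.Th.BaseA
import Crest.Agent.N218.Th.Defs

/-!
# Row 218, D0 (helper25): `base : BASE`, the Thom class of a line on `S²` (Bott periodicity)
-/

set_option autoImplicit false
set_option linter.unusedSectionVars false
set_option linter.unusedSimpArgs false

open Matrix unitInterval OnePoint Set Topology
open Crest.Agent.R204 Crest.Agent.R204.Ex837
open Crest.Agent.R204.K357 (K0)
open Crest.Agent.R204.Bott671 (Conn pl cM zc zi Lam evHom)
open Crest.Agent.N218.K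

namespace Crest.Agent.N218.Th

noncomputable section

/-- the closed unit disc -/
abbrev Dk : Type := Metric.closedBall (0 : ℂ) 1

namespace Dk

/-- the boundary circle -/
def iC : C(Circle, Dk) := ⟨fun z => ⟨z, by simp⟩, by fun_prop⟩
/-- the boundary circle, inverted -/
def jC : C(Circle, Dk) := iC.comp ⟨fun z => z⁻¹, continuous_inv⟩
/-- the centre -/
def d0 : Dk := ⟨0, by simp⟩
/-- the southern hemisphere -/
def coeD : C(Dk, OnePoint ℂ) :=
  ⟨fun d => ((d : ℂ) : OnePoint ℂ), continuous_coe.comp continuous_subtype_val⟩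

open Classical in
/-- inversion -/
def invO (v : ℂ) : OnePoint ℂ := if v = 0 then ∞ else ((v⁻¹ : ℂ) : OnePoint ℂ)

theorem invO_zero : invO 0 = ∞ := if_pos rfl
theorem invO_ne {v : ℂ} (h : v ≠ 0) : invO v = ((v⁻¹ : ℂ) : OnePoint ℂ) := if_neg h

theorem invO_coe {v w : ℂ} (h : invO v = w) : v ≠ 0 ∧ w = v⁻¹ := by
  by_cases hv : v = 0
  · rw [hv, invO_zero] at h; exact absurd h (infty_ne_coe w)
  · rw [invO_ne hv] at h; exact ⟨hv, (coe_injective h).symm⟩

theorem invO_inj : Function.Injective invO := fun v w h => by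
  by_cases hw : w = 0
  · by_contra hv
    rw [hw] at hv
    rw [hw, invO_zero, invO_ne hv] at h
    exact coe_ne_infty _ h
  · rw [invO_ne hw] at h
    exact inv_injective (invO_coe h).2.symm

theorem continuous_invO : Continuous invO := by
  rw [continuous_iff_continuousAt]
  intro v
  by_cases hv : v = 0
  · subst hv
    rw [ContinuousAt, invO_zero, hasBasis_nhds_infty.tendsto_right_iff]
    rintro K ⟨-, hK⟩
    obtain ⟨M, hM, hb⟩ := hK.isBounded.exists_pos_norm_le
    filter_upwards [Metric.ball_mem_nhds (0 : ℂ) (inv_pos.2 hM)] with w hw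
    by_cases h0 : w = 0
    · exact .inr (by rw [h0, invO_zero]; rfl)
    · refine .inl ⟨w⁻¹, fun k => ?_, (invO_ne h0).symm⟩
      have h1 := hb _ k
      rw [mem_ball_zero_iff] at hw
      rw [norm_inv, inv_le_comm₀ (norm_pos_iff.2 h0) hM] at h1
      exact absurd hw (not_lt.2 h1)
  · refine (continuous_coe.continuousAt.comp (continuousAt_inv₀ hv)).congr ?_
    filter_upwards [isOpen_ne.mem_nhds hv] with w hw using (invO_ne hw).symm

/-- the northern hemisphere -/
def invD : C(Dk, OnePoint ℂ) := ⟨fun d => invO d, continuous_invO.comp continuous_subtype_val⟩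

theorem invD_jC (z : Circle) : invD (jC z) = ((z : ℂ) : OnePoint ℂ) := by
  change invO ((z⁻¹ : Circle) : ℂ) = _
  rw [invO_ne (Circle.coe_ne_zero _), Circle.coe_inv, inv_inv]

theorem invD_ne (d : Dk) : invD d ≠ ((0 : ℂ) : OnePoint ℂ) := fun h =>
  (invO_coe h).1 (inv_eq_zero.1 (invO_coe h).2.symm)

theorem cover (w : OnePoint ℂ) : (∃ d, coeD d = w) ∨ ∃ d, invD d = w := by
  induction w using OnePoint.rec with
  | infty => exact .inr ⟨d0, invO_zero⟩
  | coe v =>
    by_cases h : ‖v‖ ≤ 1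
    · exact .inl ⟨⟨v, mem_closedBall_zero_iff.2 h⟩, rfl⟩
    · have h1 := not_le.1 h
      have h0 : v ≠ 0 := norm_pos_iff.1 (one_pos.trans h1)
      refine .inr ⟨⟨v⁻¹, mem_closedBall_zero_iff.2 ?_⟩, ?_⟩
      · rw [norm_inv]; exact inv_le_one_of_one_le₀ h1.le
      · change invO v⁻¹ = _
        rw [invO_ne (inv_ne_zero h0), inv_inv]

theorem meet {d d' : Dk} (h : coeD d = invD d') : ∃ z, iC z = d ∧ jC z = d' := by
  obtain ⟨h0, h1⟩ := invO_coe h.symm
  have a := mem_closedBall_zero_iff.1 d.2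
  have b := mem_closedBall_zero_iff.1 d'.2
  have c : ‖(d : ℂ)‖ = 1 := by
    refine le_antisymm a ?_
    rw [h1, norm_inv]
    exact (one_le_inv₀ (norm_pos_iff.2 h0)).2 b
  refine ⟨⟨d, mem_sphere_zero_iff_norm.2 c⟩, rfl, Subtype.ext ?_⟩
  change (d : ℂ)⁻¹ = d'
  rw [h1, inv_inv]

/-- the contraction of the disc -/
def scl : C(I × Dk, Dk) :=
  ⟨fun x => ⟨((x.1 : ℝ) : ℂ) * x.2, mem_closedBall_zero_iff.2 (by
    rw [norm_mul, Complex.norm_real, Real.norm_of_nonneg x.1.2.1]
    exact mul_le_one₀ x.1.2.2 (norm_nonneg _) (mem_closedBall_zero_iff.1 x.2.2))⟩, by fun_prop⟩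

variable {R : Type} [NormedCommRing R] [NormedAlgebra ℂ R] [CompleteSpace R]

/-- restriction -/
abbrev res {X Y : Type} [TopologicalSpace X] [TopologicalSpace Y] (ι : C(X, Y)) :
    C(Y, R) →+* C(X, R) := (ContinuousMap.compRightAlgHom ℂ R ι : C(Y, R) →ₐ[ℂ] C(X, R))

theorem scl_cont (f : C(Dk, R)) : Continuous fun t => res (scl.curry t) f :=
  (ContinuousMap.continuous_postcomp f).comp scl.curry.continuous

theorem scl_zero (f : C(Dk, R)) : res (scl.curry 0) f = ContinuousMap.const _ (f d0) :=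
  ContinuousMap.ext fun d => congrArg f (Subtype.ext (by simp [scl, d0]))

theorem scl_one (f : C(Dk, R)) : res (scl.curry 1) f = f :=
  ContinuousMap.ext fun d => congrArg f (Subtype.ext (by simp [scl]))

theorem conn (ι : C(Circle, Dk)) (n : Type) [Fintype n] [DecidableEq n] (c : Matrix n n C(Dk, R))
    (hc : IsUnit c) : ∃ k : Matrix n n R, Conn (c.map (res ι)) (cM k) := by
  have h : Conn (c.map (res (scl.curry 0))) (c.map (res (scl.curry 1))) :=
    ⟨⟨⟨fun t => c.map (res (scl.curry t)), continuous_matrix fun i j => scl_cont _⟩, rfl, rfl⟩,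
      fun t => hc.map (res (scl.curry t)).mapMatrix⟩
  have h' := (h.map (res ι) (ContinuousMap.compRightAlgHom_continuous ℂ R ι)).symm
  refine ⟨c.map (evHom d0), ?_⟩
  convert h' using 1
  · ext i j : 2
    simp only [RingHom.mapMatrix_apply, map_apply, scl_one]
  · ext i j : 2
    simp only [RingHom.mapMatrix_apply, map_apply, scl_zero]
    rfl

theorem k_eq (x : KC C(Dk, R)) :
    KR (ContinuousMap.C (α := Dk) : R →+* C(Dk, R)) (KR (evHom d0) x) = x := by
  have h := HInv313.map_apply_eq_of_homotopy (fun t => res (R := R) (scl.curry t)) scl_cont x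
  rw [kr_kr _ _ (res (scl.curry 0)) fun f => (scl_zero f).symm]
  exact h.trans ((congrArg (fun φ => KR φ x) (RingHom.ext scl_one)).trans (K0.map_id x))

theorem k_zero (d : Dk) {x : KC C(Dk, R)} (h : KR (evHom d) x = 0) : x = 0 := by
  rw [← k_eq x, kr_id _ _ fun _ => rfl] at h
  rw [← k_eq x, h, map_zero]

variable {Z E : Type} [TopologicalSpace Z] [CompactSpace Z] [T2Space Z] [TopologicalSpace E]

/-- currying -/
def cur (m : C(Dk × Z, E)) : C(E, ℂ) →+* C(Dk, C(Z, ℂ)) where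
  toFun f := (f.comp m).curry
  map_one' := rfl
  map_mul' _ _ := rfl
  map_zero' := rfl
  map_add' _ _ := rfl

theorem cur_apply (m : C(Dk × Z, E)) (f : C(E, ℂ)) (d : Dk) (z : Z) : cur m f d z = f (m (d, z)) :=
  rfl

theorem res_surj : Function.Surjective (res (R := C(Z, ℂ)) iC) := fun g => by
  obtain ⟨f, hf⟩ := cr_surj (i := iC.prodMap (.id Z)) (Function.Injective.prodMap
    (fun z w h => Circle.ext (congrArg (fun d : Dk => (d : ℂ)) h)) Function.injective_id) g.uncurry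
  exact ⟨f.curry, ContinuousMap.ext fun z => ContinuousMap.ext fun y =>
    DFunLike.congr_fun hf (z, y)⟩

theorem res_open : IsOpenMap (res (R := C(Z, ℂ)) iC) := by
  let f : C(Dk, C(Z, ℂ)) →L[ℂ] C(Circle, C(Z, ℂ)) :=
    ⟨(ContinuousMap.compRightAlgHom ℂ _ iC).toLinearMap,
      ContinuousMap.compRightAlgHom_continuous ℂ _ iC⟩
  exact f.isOpenMap res_surj

/-- a hemisphere of a trivial sphere bundle -/
def hm (ψ : C(Z × OnePoint ℂ, E)) (h : C(Dk, OnePoint ℂ)) : C(Dk × Z, E) :=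
  ψ.comp (ContinuousMap.snd.prodMk (h.comp ContinuousMap.fst))

theorem hm_cover {ψ : C(Z × OnePoint ℂ, E)} (hψ : Function.Bijective ψ) (x : E) :
    x ∈ range (hm ψ coeD) ∨ x ∈ range (hm ψ invD) := by
  obtain ⟨⟨z, w⟩, rfl⟩ := hψ.2 x
  rcases cover w with ⟨d, rfl⟩ | ⟨d, rfl⟩
  exacts [.inl ⟨(d, z), rfl⟩, .inr ⟨(d, z), rfl⟩]

/-- the square of the two hemispheres -/
def sq [T2Space E] (ψ : C(Z × OnePoint ℂ, E)) (hψ : Function.Bijective ψ) :
    Sq C(E, ℂ) C(Dk, C(Z, ℂ)) C(Dk, C(Z, ℂ)) C(Circle, C(Z, ℂ)) where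
  p1 := cur (hm ψ coeD)
  p2 := cur (hm ψ invD)
  al := res iC
  be := res jC
  comm f := ContinuousMap.ext fun z => ContinuousMap.ext fun y =>
    congrArg (fun w => f (ψ (y, w))) (invD_jC z).symm
  lift a b e := by
    obtain ⟨c, c1, c2⟩ := exists_glue (hm ψ coeD) (hm ψ invD) (hm_cover hψ) a.uncurry b.uncurry
      (fun u u' e' => by
        obtain ⟨e1, e2⟩ := Prod.ext_iff.1 (hψ.1 e')
        rw [show u = u' from Prod.ext (Subtype.ext (coe_injective e2)) e1])
      (fun u u' e' => by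
        obtain ⟨e1, e2⟩ := Prod.ext_iff.1 (hψ.1 e')
        rw [show u = u' from Prod.ext (Subtype.ext (invO_inj e2)) e1])
      fun ⟨d, y⟩ ⟨d', y'⟩ e' => by
        obtain ⟨e1, e2⟩ := Prod.ext_iff.1 (hψ.1 e')
        obtain rfl : y = y' := e1
        obtain ⟨z, rfl, rfl⟩ := meet e2
        exact DFunLike.congr_fun (DFunLike.congr_fun e z) y
    exact ⟨c, ContinuousMap.ext fun d => ContinuousMap.ext fun y => c1 (d, y),
      ContinuousMap.ext fun d => ContinuousMap.ext fun y => c2 (d, y)⟩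
  inj f f' e e' := by
    ext x
    rcases hm_cover hψ x with ⟨u, rfl⟩ | ⟨u, rfl⟩
    exacts [DFunLike.congr_fun (DFunLike.congr_fun e u.1) u.2,
      DFunLike.congr_fun (DFunLike.congr_fun e' u.1) u.2]

end Dk

open Dk

theorem th_of {Z : Type} [TopologicalSpace Z] [CompactSpace Z] [T2Space Z] (A : Ex Z)
    (ψ : C(Z × OnePoint ℂ, A.E)) (hψ : Function.Bijective ψ) (hp : ∀ z w, A.p (ψ (z, w)) = z)
    (hs : ∀ z, A.s z = ψ (z, ∞)) {l : KX A.E}
    (hl : l = bott (Dk.sq ψ hψ) ∨ l = -bott (Dk.sq ψ hψ)) : A.Th l := by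
  have H : BH (Dk.sq ψ hψ) (cr A.p) :=
    ⟨res_surj, res_open, fun r => ContinuousMap.ext fun z => ContinuousMap.ext fun y =>
      congrArg r (hp _ _), conn iC, conn jC⟩
  have e0 : ∀ x, pull A.s x = KR (evHom d0) (KR (Dk.sq ψ hψ).p2 x) := fun x =>
    (kr_kr _ _ (cr A.s) (fun f => ContinuousMap.ext fun y => congrArg f
      ((congrArg (fun w => ψ (y, w)) invO_zero).trans (hs y).symm)) x).symm
  have e1 : pull A.s (bott (Dk.sq ψ hψ)) = 0 := by
    rw [e0, show KR (Dk.sq ψ hψ).p2 (bott (Dk.sq ψ hψ)) = 0 from p2_bd H.sur (isUnit_z Unit),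
      map_zero]
  have e2 : ∀ x, A.Rd x → ∃ a, x = pull A.p a * bott (Dk.sq ψ hψ) := fun x hx => by
    have h2 : KR (Dk.sq ψ hψ).p2 x = 0 := k_zero d0 ((e0 x).symm.trans hx)
    refine H.surj (k_zero (iC 1) ?_) h2
    rw [kr_sq _ _ (evHom (jC 1)) (Dk.sq ψ hψ).p2 fun f =>
      DFunLike.congr_fun ((Dk.sq ψ hψ).comm f) 1, h2, map_zero]
  have e3 : ∀ a, pull A.p a * bott (Dk.sq ψ hψ) = 0 → a = 0 := fun a => H.inj
  rcases hl with rfl | rfl
  · refine ⟨e1, fun x hx => ?_⟩
    obtain ⟨a, ha⟩ := e2 x hx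
    refine ⟨a, ha, fun b hb => sub_eq_zero.1 (e3 _ ?_)⟩
    rw [map_sub, sub_mul, ← ha]
    exact sub_eq_zero.2 (Eq.symm hb)
  · refine ⟨(map_neg _ _).trans (by rw [e1, neg_zero]), fun x hx => ?_⟩
    obtain ⟨a, ha⟩ := e2 x hx
    refine ⟨-a, by simpa [Ex.sm] using ha, fun b hb => eq_neg_of_add_eq_zero_left (e3 _ ?_)⟩
    have hb' : x = pull A.p b * -bott (Dk.sq ψ hψ) := hb
    rw [map_add, add_mul, ← ha, hb']
    ring

theorem bd_zi {R : Type} [NormedCommRing R] [NormedAlgebra ℂ R] [CompleteSpace R]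
    {P A B : Type} [CommRing P] [CommRing A] [CommRing B] {S : Sq P A B C(Circle, R)}
    (h : Function.Surjective S.al) :
    bd S ((zi : C(Circle, R)) • (1 : Matrix Unit Unit C(Circle, R))) =
      -bd S ((zc : C(Circle, R)) • (1 : Matrix Unit Unit C(Circle, R))) := by
  have e1 : ((zi : C(Circle, R)) • (1 : Matrix Unit Unit C(Circle, R))) *
      ((zc : C(Circle, R)) • 1) = 1 := by
    rw [smul_mul_smul_comm, Bott671.zi_mul_zc, one_smul, Matrix.mul_one]
  refine eq_neg_of_add_eq_zero_left ?_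
  rw [← bd_mul h (IsUnit.of_mul_eq_one _ e1) (isUnit_z Unit), e1, bd_one h]

theorem col_row {T k : Type} [CommRing T] [Fintype k] (a a' : k → T) (i j : k) :
    ((Matrix.of fun i (_ : Unit) => a i) * (Matrix.of fun (_ : Unit) i => a' i)) i j =
      a i * a' j := by
  simp [Matrix.mul_apply]

theorem row_col {X T k : Type} [TopologicalSpace X] [CommRing T] [Fintype k]
    (φ : C(X, ℂ) →+* T) (a a' : k → C(X, ℂ)) (h : ∀ x, ∑ i, a' i x * a i x = 1) :
    (Matrix.of fun (_ : Unit) i => φ (a' i)) * (Matrix.of fun i (_ : Unit) => φ (a i)) = 1 := by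
  have e : ∑ i, a' i * a i = 1 := by
    ext x
    simpa using h x
  ext i j
  simpa [Matrix.mul_apply] using congrArg φ e

theorem col_smul {R k : Type} [CommRing R] [Fintype k] (b : Matrix k Unit R) (u : R) (i : k)
    (j : Unit) : (b * (u • (1 : Matrix Unit Unit R))) i j = b i j * u := by
  simp [mul_comm]

theorem isG_line {Z E k : Type} [TopologicalSpace Z] [CompactSpace Z] [T2Space Z]
    [TopologicalSpace E] [T2Space E] [Fintype k] [DecidableEq k] {ψ : C(Z × OnePoint ℂ, E)}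
    (hψ : Function.Bijective ψ) {f : C(E, OnePoint ℂ)} (hf : ∀ z w, f (ψ (z, w)) = w)
    (e : Matrix k k C(OnePoint ℂ, ℂ)) (a a' b b' : k → C(Dk, ℂ))
    (h1 : ∀ d i j, e i j (coeD d) = a i d * a' j d) (h2 : ∀ d, ∑ i, a' i d * a i d = 1)
    (h3 : ∀ d i j, e i j (invD d) = b i d * b' j d) (h4 : ∀ d, ∑ i, b' i d * b i d = 1)
    (u : C(Circle, C(Z, ℂ))) (h5 : ∀ z y i, a i (iC z) = b i (jC z) * u z y) :
    IsG (Dk.sq ψ hψ) (e.map (cr f)) (u • (1 : Matrix Unit Unit _)) := by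
  refine ⟨.of fun i _ => cur .fst (a i), .of fun _ i => cur .fst (a' i),
    .of fun i _ => cur .fst (b i), .of fun _ i => cur .fst (b' i), ?_,
    row_col _ a a' h2, ?_, row_col _ b b' h4, ?_⟩
  · ext i j d y
    rw [col_row]
    exact (h1 d i j).symm.trans (congrArg (e i j) (hf y _).symm)
  · ext i j d y
    rw [col_row]
    exact (h3 d i j).symm.trans (congrArg (e i j) (hf y _).symm)
  · ext i j z y
    rw [col_smul]
    exact h5 z y i

/-- **BASE** -/
theorem base : BASE := by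
  intro k _ _ e a a' b b' ca ca' cb cb' h1 h2 h3 h4 h5 Z _ _ _ A g F hF _
  obtain ⟨f, ef⟩ : ∃ f : C(A.E, OnePoint ℂ), f = F.f := ⟨_, rfl⟩
  have hκ : Function.Bijective fun x : A.E => ((A.p x, f x) : Z × OnePoint ℂ) := by
    subst ef
    exact ⟨fun x y h => hF.1 x y (congrArg Prod.fst h) (congrArg Prod.snd h), fun ⟨z, w⟩ =>
      let ⟨x, e1, e2⟩ := hF.2 z w rfl; ⟨x, Prod.ext e1 e2⟩⟩
  have hs0 : ∀ z, f (A.s z) = ∞ := fun z => ef ▸ F.hs z
  suffices A.Th (pull f ((K0.cls e : KX (OnePoint ℂ)) - 1 : KX (OnePoint ℂ))) from ef ▸ this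
  let κ : A.E ≃ₜ Z × OnePoint ℂ := Continuous.homeoOfEquivCompactToT2
    (f := Equiv.ofBijective _ hκ) (A.p.continuous.prodMk f.continuous)
  obtain ⟨ψ, hψ, hp, hf⟩ : ∃ ψ : C(Z × OnePoint ℂ, A.E), Function.Bijective ψ ∧
      (∀ z w, A.p (ψ (z, w)) = z) ∧ ∀ z w, f (ψ (z, w)) = w :=
    ⟨⟨κ.symm, κ.symm.continuous⟩, κ.symm.bijective,
      fun z w => congrArg Prod.fst (κ.apply_symm_apply (z, w)),
      fun z w => congrArg Prod.snd (κ.apply_symm_apply (z, w))⟩
  have hs : ∀ z, A.s z = ψ (z, ∞) := fun z =>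
    hκ.1 (Prod.ext ((A.ps z).trans (hp z _).symm) ((hs0 z).trans (hf z _).symm))
  have cI : ∀ {c : OnePoint ℂ → k → ℂ}, ContinuousOn c {((0 : ℂ) : OnePoint ℂ)}ᶜ → ∀ i,
      Continuous fun d : Dk => c (invD d) i := fun hc i =>
    (continuous_apply i).comp (hc.comp_continuous invD.continuous invD_ne)
  have cJ : ∀ {c : ℂ → k → ℂ}, Continuous c → ∀ i, Continuous fun d : Dk => c d i := fun hc i =>
    (continuous_apply i).comp (hc.comp continuous_subtype_val)
  have he : e * e = e := by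
    ext i j w
    rw [K.mul_ap]
    by_cases hw : w = ((0 : ℂ) : OnePoint ℂ)
    · subst hw
      simp only [h1]
      calc _ = a 0 i * (∑ x, a' 0 x * a 0 x) * a' 0 j := by
            rw [Finset.mul_sum, Finset.sum_mul]; exact Finset.sum_congr rfl fun _ _ => by ring
        _ = _ := by rw [h2, mul_one]
    · simp only [h3 w hw]
      calc _ = b w i * (∑ x, b' w x * b w x) * b' w j := by
            rw [Finset.mul_sum, Finset.sum_mul]; exact Finset.sum_congr rfl fun _ _ => by ring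
        _ = _ := by rw [h4 w hw, mul_one]
  have G : ∀ u : C(Circle, C(Z, ℂ)), (∀ (z : Circle) y i, a z i = b (z : ℂ) i * u z y) →
      bd (Dk.sq ψ hψ) (u • (1 : Matrix Unit Unit _)) =
        pull f ((K0.cls e : KX (OnePoint ℂ)) - 1 : KX (OnePoint ℂ)) := fun u hu => by
    have := isG_line hψ hf e (fun i => ⟨_, cJ ca i⟩) (fun i => ⟨_, cJ ca' i⟩)
      (fun i => ⟨_, cI cb i⟩) (fun i => ⟨_, cI cb' i⟩) (fun d => h1 d) (fun d => h2 d)
      (fun d => h3 _ (invD_ne d)) (fun d => h4 _ (invD_ne d)) u fun z y i =>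
        (hu z y i).trans (congrArg (fun w => b w i * u z y) (invD_jC z).symm)
    rw [this.cls res_surj, map_sub, map_one, Fintype.card_unit, Nat.cast_one]
    congr 1
    exact (K0.map_cls _ he).symm
  refine th_of A ψ hψ hp hs ?_
  rcases h5 with h5 | h5
  · refine .inl (G zc fun z y i => ?_).symm
    rw [h5 z z.coe_ne_zero]
    simp [mul_comm]
  · refine .inr ((G zi fun z y i => ?_).symm.trans (bd_zi res_surj))
    rw [h5 z z.coe_ne_zero]
    simp [mul_comm]

end

end Crest.Agent.N218.Th
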