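import Crest.Agent.N218.Th.Defs
import Crest.Agent.N218.K.Rel

/-!
# Row 218, D0 (helper79): Thom classes, local to global
-/

set_option autoImplicit false
set_option linter.unusedVariables false

open Crest.Agent.R204 Crest.Agent.R204.Ex837 Crest.Agent.R204.LineT357
open Crest.Agent.R204.K357 (K0)
open Crest.Agent.N218.K unitInterval Set Topology

namespace Crest.Agent.N218.Th

noncomputable section

/-- composition as an algebra map -/
abbrev ca {X Y : Type} [TopologicalSpace X] [TopologicalSpace Y] (f : C(X, Y)) :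
    C(Y, ℂ) →ₐ[ℂ] C(X, ℂ) := ContinuousMap.compRightAlgHom ℂ ℂ f

theorem ca_cont {X Y : Type} [TopologicalSpace X] [TopologicalSpace Y] [CompactSpace X]
    [CompactSpace Y] (f : C(X, Y)) : Continuous (ca f) :=
  ContinuousMap.compRightAlgHom_continuous ℂ ℂ f

section alg
variable {R T R' T' U : Type} [CommRing R] [CommRing T] [Algebra ℂ R] [Algebra ℂ T] [CommRing R']
  [CommRing T'] [Algebra ℂ R'] [Algebra ℂ T'] [CommRing U] [Algebra ℂ U]

theorem kk_eq (g : T →ₐ[ℂ] U) (f : R →ₐ[ℂ] T) (h : R →ₐ[ℂ] U) (H : ∀ a, g (f a) = h a) (x : KC R) :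
    KA g (KA f x) = KA h x := kr_kr (g : T →+* U) (f : R →+* T) (h : R →+* U) H x

theorem kk_sq (g : T →ₐ[ℂ] U) (f : R →ₐ[ℂ] T) (g' : T' →ₐ[ℂ] U) (f' : R →ₐ[ℂ] T')
    (H : ∀ a, g (f a) = g' (f' a)) (x : KC R) : KA g (KA f x) = KA g' (KA f' x) :=
  kr_sq (g : T →+* U) (f : R →+* T) (g' : T' →+* U) (f' : R →+* T') H x

theorem ka_bij (e : R →ₐ[ℂ] T) (he : Function.Bijective e) : Function.Bijective (KA e) := by
  let e' : T →ₐ[ℂ] R := (AlgEquiv.ofBijective e he).symm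
  exact Function.bijective_iff_has_inverse.2 ⟨KA e',
    fun x => kr_id (e' : T →+* R) (e : R →+* T) (AlgEquiv.ofBijective e he).symm_apply_apply x,
    fun x => kr_id (e : R →+* T) (e' : T →+* R) (AlgEquiv.ofBijective e he).apply_symm_apply x⟩

/-- transport of Thom classes along isomorphisms -/
theorem Bj.iso {p : R →ₐ[ℂ] T} {s : T →ₐ[ℂ] R} {l : KC T} (h : Bj p s l) {p' : R' →ₐ[ℂ] T'}
    {s' : T' →ₐ[ℂ] R'} (eR : R →ₐ[ℂ] R') (eT : T →ₐ[ℂ] T') (hR : Function.Bijective eR)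
    (hT : Function.Bijective eT) (hp : ∀ a, p' (eR a) = eT (p a)) (hs : ∀ a, s' (eT a) = eR (s a)) :
    Bj p' s' (KA eT l) := by
  constructor
  · intro a ha
    obtain ⟨a, rfl⟩ := (ka_bij eR hR).2 a
    rw [kk_sq p' eR eT p hp, ← map_mul, map_eq_zero_iff _ (ka_bij eT hT).1] at ha
    rw [h.1 a ha, map_zero]
  · intro x hx
    obtain ⟨x, rfl⟩ := (ka_bij eT hT).2 x
    rw [kk_sq s' eT eR s hs, map_eq_zero_iff _ (ka_bij eR hR).1] at hx
    obtain ⟨a, rfl⟩ := h.2 x hx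
    exact ⟨KA eR a, by rw [kk_sq p' eR eT p hp, map_mul]⟩

end alg

/-! ## loops -/

/-- the circle -/
abbrev T1 : Type := AddCircle (1 : ℝ)

/-- the parametrisation of the circle -/
def qT : C(I, T1) := ⟨fun t => ((t : ℝ) : T1), (AddCircle.continuous_mk' 1).comp continuous_subtype_val⟩

theorem qT_01 : qT 0 = qT 1 := (AddCircle.coe_period (1 : ℝ)).symm

theorem qT_surj : Function.Surjective qT := fun y =>
  ⟨⟨AddCircle.equivIco 1 0 y, (AddCircle.equivIco 1 0 y).2.1,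
    (by simpa using (AddCircle.equivIco 1 0 y).2.2.le)⟩, AddCircle.coe_equivIco⟩

theorem qT_fac {α : Type} (f : I → α) (h : f 0 = f 1) {t t' : I} (e : qT t = qT t') :
    f t = f t' := by
  have k : ∀ t : I, ∃ u : I, (u : ℝ) ∈ Ico (0 : ℝ) (0 + 1) ∧ qT u = qT t ∧ f u = f t := fun t => by
    by_cases ht : t = 1
    · exact ⟨0, by simp, ht ▸ qT_01, ht ▸ h⟩
    · exact ⟨t, ⟨t.2.1, by simpa using lt_of_le_of_ne t.2.2 fun c => ht (Subtype.ext c)⟩, rfl, rfl⟩
  obtain ⟨u, u1, u2, u3⟩ := k t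
  obtain ⟨u', v1, v2, v3⟩ := k t'
  have : u = u' :=
    Subtype.ext ((AddCircle.coe_eq_coe_iff_of_mem_Ico u1 v1).1 (u2.trans (e.trans v2.symm)))
  rw [← u3, ← v3, this]

section lp
variable (W : Type) [TopologicalSpace W]

/-- the cylinder over the torus -/
def piT : C(I × W, W × T1) := ⟨fun z => (z.2, qT z.1), by fun_prop⟩

variable [CompactSpace W]

/-- functions on `W × S¹` are loops of functions on `W` -/
def lpT : C(W × T1, ℂ) →ₐ[ℂ] LA C(W, ℂ) where
  toFun f := LA.mk (f.comp (piT W)).curry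
    (ContinuousMap.ext fun w => congrArg (fun t => f (w, t)) qT_01)
  map_one' := rfl
  map_mul' _ _ := rfl
  map_zero' := rfl
  map_add' _ _ := rfl
  commutes' _ := rfl

theorem lpT_fn (f : C(W × T1, ℂ)) (t : I) (w : W) : (lpT W f).fn t w = f (w, qT t) := rfl

theorem lpT_bij [T2Space W] : Function.Bijective (lpT W) := by
  constructor
  · intro f f' e
    ext ⟨w, y⟩
    obtain ⟨t, rfl⟩ := qT_surj y
    exact congrArg (fun a : LA C(W, ℂ) => a.fn t w) e
  · intro a
    have hπ : IsQuotientMap (piT W) :=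
      (piT W).continuous.isClosedMap.isQuotientMap (piT W).continuous fun ⟨w, y⟩ => by
        obtain ⟨t, rfl⟩ := qT_surj y
        exact ⟨(t, w), rfl⟩
    have hg : Function.FactorsThrough a.fn.uncurry (piT W) := by
      rintro ⟨t, w⟩ ⟨t', w'⟩ e
      obtain rfl : w = w' := congrArg Prod.fst e
      exact congrArg (fun c : C(W, ℂ) => c w) (qT_fac a.fn a.fn01 (congrArg Prod.snd e))
    exact ⟨hπ.lift _ hg, LA.ext fun t => ContinuousMap.ext fun w =>
      DFunLike.congr_fun (hπ.lift_comp _ hg) (t, w)⟩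

end lp

/-! ## squares of closed covers -/

/-- the Mayer-Vietoris square of a cover -/
def bqOf {W W1 W2 W0 : Type} [TopologicalSpace W] [TopologicalSpace W1] [TopologicalSpace W2]
    [TopologicalSpace W0] [CompactSpace W] [CompactSpace W1] [CompactSpace W2] [CompactSpace W0]
    [T2Space W] [T2Space W1] (i : C(W1, W)) (j : C(W2, W)) (k : C(W0, W1)) (l : C(W0, W2))
    (hi : Function.Injective i) (hj : Function.Injective j) (hk : Function.Injective k)
    (h : ∀ x, x ∈ range i ∨ x ∈ range j) (hc : ∀ c, i (k c) = j (l c))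
    (hs : ∀ u u', i u = j u' → ∃ c, k c = u ∧ l c = u') :
    Bq C(W, ℂ) C(W1, ℂ) C(W2, ℂ) C(W0, ℂ) where
  p1 := ca i
  p2 := ca j
  al := ca k
  be := ca l
  ca := ca_cont k
  cb := ca_cont l
  comm := (sqCov i j k l hi hj h hc hs).comm
  lift := (sqCov i j k l hi hj h hc hs).lift
  inj := (sqCov i j k l hi hj h hc hs).inj
  sur := cr_surj hk

/-! ## ex-spaces -/

section ex
variable {X X' X'' : Type} [TopologicalSpace X] [TopologicalSpace X'] [TopologicalSpace X'']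

theorem th_iff (A : Ex X) (l : KX A.E) : A.Th l ↔ A.Rd l ∧ Bj (ca A.p) (ca A.s) l := by
  refine and_congr_right fun hl => ⟨fun h => ⟨fun a ha => ?_, fun x hx => (h x hx).exists⟩,
    fun h x hx => ?_⟩
  · exact (h 0 (map_zero _)).unique ha.symm (by rw [Ex.sm, map_zero, zero_mul])
  · obtain ⟨a, ha⟩ := h.2 x hx
    refine ⟨a, ha, fun b hb => sub_eq_zero.1 (h.1 _ ?_)⟩
    rw [map_sub, sub_mul, sub_eq_zero]
    exact hb.symm.trans ha

/-- composition of maps of ex-spaces -/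
def hcm {A : Ex X} {B : Ex X'} {C : Ex X''} {g : C(X, X')} {g' : C(X', X'')} (F : Hm A B g)
    (G : Hm B C g') : Hm A C (g'.comp g) :=
  ⟨G.f.comp F.f, fun e => (G.hp _).trans (congrArg g' (F.hp e)),
    fun x => (congrArg G.f (F.hs x)).trans (G.hs _)⟩

theorem Cart.cm {A : Ex X} {B : Ex X'} {C : Ex X''} {g : C(X, X')} {g' : C(X', X'')} {F : Hm A B g}
    {G : Hm B C g'} (h : Cart F) (h' : Cart G) : Cart (hcm F G) := by
  refine ⟨fun e e' a b => h.1 e e' a (h'.1 _ _ ?_ b), fun x c hc => ?_⟩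
  · rw [F.hp, F.hp, a]
  · obtain ⟨b, b1, b2⟩ := h'.2 (g x) c hc
    obtain ⟨e, e1, e2⟩ := h.2 x b b1.symm
    exact ⟨e, e1, (congrArg G.f e2).trans b2⟩

theorem rd_pull {A : Ex X} {B : Ex X'} {g : C(X, X')} (F : Hm A B g) {l : KX B.E} (h : B.Rd l) :
    A.Rd (pull F.f l) := by
  rw [Ex.Rd, pull_pull A.s F.f (B.s.comp g) F.hs, pull_comp, h, map_zero]

/-- product with a compact space -/
def exT (A : Ex X) (T : Type) [TopologicalSpace T] [CompactSpace T] [T2Space T] : Ex (X × T) where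
  E := A.E × T
  p := A.p.prodMap (.id T)
  s := A.s.prodMap (.id T)
  ps x := Prod.ext (A.ps _) rfl

/-- the projection -/
def exTp (A : Ex X) (T : Type) [TopologicalSpace T] [CompactSpace T] [T2Space T] :
    Hm (exT A T) A .fst := ⟨.fst, fun _ => rfl, fun _ => rfl⟩

theorem exTp_cart (A : Ex X) (T : Type) [TopologicalSpace T] [CompactSpace T] [T2Space T] :
    Cart (exTp A T) :=
  ⟨fun e e' a b => Prod.ext b (congrArg Prod.snd a :), fun x b h =>
    ⟨(b, x.2), Prod.ext h.symm rfl, rfl⟩⟩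

/-- inclusion of a subset -/
def sinc (U : Set X) : C(U, X) := ⟨Subtype.val, continuous_subtype_val⟩

/-- restriction to a closed set -/
def exR (A : Ex X) {U : Set X} (hU : IsClosed U) : Ex U where
  E := A.p ⁻¹' U
  cpt := isCompact_iff_compactSpace.1 (hU.preimage A.p.continuous).isCompact
  p := ⟨fun e => ⟨A.p e, e.2⟩, by fun_prop⟩
  s := ⟨fun x => ⟨A.s x, show A.p (A.s x) ∈ U by rw [A.ps]; exact x.2⟩, by fun_prop⟩
  ps x := Subtype.ext (A.ps _)

/-- the inclusion -/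
def exRi (A : Ex X) {U : Set X} (hU : IsClosed U) : Hm (exR A hU) A (sinc U) :=
  ⟨sinc _, fun _ => rfl, fun _ => rfl⟩

theorem exRi_cart (A : Ex X) {U : Set X} (hU : IsClosed U) : Cart (exRi A hU) :=
  ⟨fun e e' a b => Subtype.ext b, fun x b h =>
    ⟨⟨b, show A.p b ∈ U from h ▸ x.2⟩, Subtype.ext h.symm, rfl⟩⟩

theorem Un.bj2 {B : Ex X} {l : KX B.E} {S : Set X} (h : Un B l S) {Z : Type} [TopologicalSpace Z]
    [CompactSpace Z] [T2Space Z] (A : Ex Z) {g : C(Z, X)} (F : Hm A B g) (hF : Cart F)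
    (hg : ∀ z, g z ∈ S) :
    Bj2 (ca A.p) (ca_cont _) (ca A.s) (ca_cont _) (pull F.f l) := by
  refine ⟨((th_iff _ _).1 (h Z A g F hF hg)).2, ?_⟩
  have k := (((th_iff _ _).1 (h _ (exT A T1) _ (hcm (exTp A T1) F) ((exTp_cart A T1).cm hF)
    fun z => hg _)).2).iso (p' := LA.map (ca A.p) (ca_cont _)) (s' := LA.map (ca A.s) (ca_cont _))
    (lpT Z) (lpT A.E) (lpT_bij Z) (lpT_bij A.E) (fun _ => rfl) fun _ => rfl
  have e : KA (lpT A.E) (pull (hcm (exTp A T1) F).f l) = cs C(A.E, ℂ) (pull F.f l) :=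
    kk_sq (lpT A.E) (ca (hcm (exTp A T1) F).f) LA.cst (ca F.f) (fun _ => rfl) l
  exact e ▸ k

end ex

/-- the square of a closed cover by subsets -/
def bqS {W : Type} [TopologicalSpace W] [CompactSpace W] [T2Space W] (U V : Set W) [CompactSpace U]
    [CompactSpace V] [CompactSpace ↥(U ∩ V)] (h : ∀ x, x ∈ U ∨ x ∈ V) :
    Bq C(W, ℂ) C(U, ℂ) C(V, ℂ) C(↥(U ∩ V), ℂ) :=
  bqOf (sinc U) (sinc V) (.inclusion inter_subset_left) (.inclusion inter_subset_right)
    Subtype.val_injective Subtype.val_injective (inclusion_injective inter_subset_left)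
    (fun x => (h x).imp (fun a => ⟨⟨x, a⟩, rfl⟩) fun a => ⟨⟨x, a⟩, rfl⟩) (fun _ => rfl)
    fun u u' e => ⟨⟨u, u.2, by rw [show (u : W) = u' from e]; exact u'.2⟩, rfl, Subtype.ext e⟩

/-- **local to global** -/
theorem loc (five : FIVE) : LOC := by
  intro X _ B l S T hl hS hT uS uT Z _ _ _ A g F hF hg
  have hU : IsClosed (g ⁻¹' S) := hS.preimage g.continuous
  have hV : IsClosed (g ⁻¹' T) := hT.preimage g.continuous
  have hW := hU.inter hV
  have := isCompact_iff_compactSpace.1 hU.isCompact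
  have := isCompact_iff_compactSpace.1 hV.isCompact
  have := isCompact_iff_compactSpace.1 hW.isCompact
  let A1 := exR A hU
  let A2 := exR A hV
  let A0 := exR A hW
  let i : C(A0.E, A1.E) := .inclusion (preimage_mono inter_subset_left)
  let j : C(A0.E, A2.E) := .inclusion (preimage_mono inter_subset_right)
  let Q := bqS (g ⁻¹' S) (g ⁻¹' T) hg
  let Q' : Bq C(A.E, ℂ) C(A1.E, ℂ) C(A2.E, ℂ) C(A0.E, ℂ) :=
    bqOf (exRi A hU).f (exRi A hV).f i j Subtype.val_injective Subtype.val_injective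
      (inclusion_injective (preimage_mono inter_subset_left))
      (fun x => (hg (A.p x)).imp (fun a => ⟨⟨x, a⟩, rfl⟩) fun a => ⟨⟨x, a⟩, rfl⟩) (fun _ => rfl)
      fun u u' e => ⟨⟨u.1, u.2, by rw [show u.1 = u'.1 from e]; exact u'.2⟩, rfl, Subtype.ext e⟩
  let P : BqH Q Q' := ⟨ca A.p, ca A1.p, ca A2.p, ca A0.p, ca_cont _, ca_cont _, ca_cont _,
    fun _ => rfl, fun _ => rfl, fun _ => rfl, fun _ => rfl⟩
  let G : BqH Q' Q := ⟨ca A.s, ca A1.s, ca A2.s, ca A0.s, ca_cont _, ca_cont _, ca_cont _,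
    fun _ => rfl, fun _ => rfl, fun _ => rfl, fun _ => rfl⟩
  have b1 := uS.bj2 A1 (hcm (exRi A hU) F) ((exRi_cart A hU).cm hF) fun z => z.2
  have b2 := uT.bj2 A2 (hcm (exRi A hV) F) ((exRi_cart A hV).cm hF) fun z => z.2
  have b0 := uS.bj2 A0 (hcm (exRi A hW) F) ((exRi_cart A hW).cm hF) fun z => z.2.1
  have e1 : pull (hcm (exRi A hU) F).f l = KA Q'.p1 (pull F.f l) := pull_comp _ _ _
  have e2 : pull (hcm (exRi A hV) F).f l = KA Q'.p2 (pull F.f l) := pull_comp _ _ _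
  have e0 : pull (hcm (exRi A hW) F).f l = KA Q'.be (KA Q'.p2 (pull F.f l)) := by
    rw [← e2]
    exact (pull_pull j _ _ (fun _ => rfl) l).symm
  rw [e1] at b1
  rw [e2] at b2
  rw [e0] at b0
  exact (th_iff _ _).2 ⟨rd_pull F hl, five _ _ _ _ _ _ _ _ Q Q' P G _
    (fun x => ContinuousMap.ext fun z => congrArg x (A.ps z))
    (fun x => ContinuousMap.ext fun z => congrArg x (A1.ps z))
    (fun x => ContinuousMap.ext fun z => congrArg x (A2.ps z))
    (fun x => ContinuousMap.ext fun z => congrArg x (A0.ps z)) (rd_pull F hl) b1 b2 b0⟩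

end

end Crest.Agent.N218.Th
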