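import Crest.Agent.N218.Th.Defs
import Crest.Agent.N218.K.Pd

/-!
# Row 218, D0: the Mayer-Vietoris sequence `K(LA A) ⊕ K(LA B) → K(LA C) → K P → K A ⊕ K B`
-/

set_option autoImplicit false
set_option linter.unusedSectionVars false
set_option linter.unusedSimpArgs false

open Matrix
open scoped Kronecker unitInterval
open Crest.Agent.R204 Crest.Agent.R204.Ex837 Crest.Agent.R204.LineT357
open Crest.Agent.R204.K357 (K0)
open Crest.Agent.N218.K

namespace Crest.Agent.N218.Th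

noncomputable section

variable {P A B C : Type} [NormedCommRing P] [NormedAlgebra ℂ P] [NormedCommRing A]
  [NormedAlgebra ℂ A] [NormedCommRing B] [NormedAlgebra ℂ B] [NormedCommRing C] [NormedAlgebra ℂ C]
variable {n m k l : Type} [Fintype n] [DecidableEq n] [Fintype m] [DecidableEq m]
  [Fintype k] [DecidableEq k] [Fintype l] [DecidableEq l]

/-- evaluation of loops -/
abbrev e0 (A : Type) [NormedCommRing A] [NormedAlgebra ℂ A] : KC (LA A) →+* KC A := KA (LA.ev 0)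

theorem e0_cs (a : KC A) : e0 A (cs A a) = a := ka_ka_id _ _ (fun _ => rfl) a

theorem e0_KL (φ : A →ₐ[ℂ] B) (h : Continuous φ) (y : KC (LA A)) :
    e0 B (KL φ h y) = KA φ (e0 A y) := by
  have H : ∀ a : LA A, (LA.ev 0 : LA B →ₐ[ℂ] B) (LA.map φ h a) = φ ((LA.ev 0 : LA A →ₐ[ℂ] A) a) :=
    fun _ => by rw [LA.ev_apply, LA.map_fn, LA.ev_apply]
  exact ka_sq (LA.ev 0 : LA B →ₐ[ℂ] B) (LA.map φ h) φ (LA.ev 0 : LA A →ₐ[ℂ] A) H y

theorem KL_cs (φ : A →ₐ[ℂ] B) (h : Continuous φ) (a : KC A) :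
    KL φ h (cs A a) = cs B (KA φ a) :=
  ka_sq (LA.map φ h) LA.cst LA.cst φ (fun _ => rfl) a

theorem KL_dL (φ : A →ₐ[ℂ] B) (h : Continuous φ) (g : (Matrix n n A)ˣ) :
    KL φ h (dL g) = dL (umap φ g) := map_dL φ h g

theorem e0_dL (g : (Matrix n n A)ˣ) : e0 A (dL g) = 0 := by
  obtain ⟨a, b, -, -, hab, hba, -⟩ := isCl_EL g
  have h1 : K0.cls ((EL g).map (LA.ev 0)) = K0.cls (1 : Matrix n n A) :=
    K0.cls_eq (K357.idem_map ((LA.ev 0 : LA A →ₐ[ℂ] A) : LA A →+* A) (EL_idem g)) (idemOne n)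
      ⟨a 0, b 0, hab 0, hba 0⟩
  rw [dL, map_sub, ka_cls _ (EL_idem g), ka_cls _ (idemOne n), h1, evL_one, sub_self]

theorem exists_dL [CompleteSpace A] {y : KC (LA A)} (hy : e0 A y = 0) :
    ∃ (r : ℕ) (g : (Matrix (Fin r) (Fin r) A)ˣ), dL g = y := by
  obtain ⟨j, r, q, hq, rfl⟩ := K0.exists_rep_one y
  rw [map_sub, ka_cls _ hq, ka_cls _ (idemOne _), evL_one, sub_eq_zero] at hy
  obtain ⟨l, hl⟩ := free_of (K357.idem_map ((LA.ev 0 : LA A →ₐ[ℂ] A) : LA A →+* A) hq) hy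
  obtain ⟨a, b, h1, h2⟩ := hl l le_rfl
  set E : Matrix (Fin j ⊕ Fin l) (Fin j ⊕ Fin l) (LA A) := fromBlocks q 0 0 1 with hE
  have hEi : E * E = E := K357.idem_sum hq (idemOne _)
  have h1' : a * b = E.map (LA.ev 0) := by rw [hE, evL_fb, evL_one]; exact h1
  obtain ⟨g, g', cg, cg', -, g2, g0, -, hg, -⟩ := Banach313.exists_path_conj_matrix.{0}
    (fun t => E.map (LA.ev t)) (matL_continuous E) (fun t => by rw [← evL_mul, hEi])
  have h01 : g 1 * (a * b) * g' 1 = a * b := by rw [h1', ← hg 1, matL_01]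
  have hu : b * (g 1 * a) * (b * g' 1 * a) = 1 := by
    calc _ = b * (g 1 * (a * b) * g' 1) * a := by simp only [Matrix.mul_assoc]
      _ = 1 := by rw [h01, ← Matrix.mul_assoc, h2, Matrix.one_mul, h2]
  have H : IsCl E (b * (g 1 * a)) := by
    refine ⟨fun s => g s * a, fun s => b * g' s, cg.matrix_mul continuous_const,
      continuous_const.matrix_mul cg', fun s => ?_, fun s => ?_, ?_⟩
    · rw [hg s, ← h1']; simp only [Matrix.mul_assoc]
    · rw [Matrix.mul_assoc, ← Matrix.mul_assoc (g' s), g2, Matrix.one_mul, h2]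
    · change g 1 * a = g 0 * a * (b * (g 1 * a))
      rw [g0, Matrix.one_mul, ← Matrix.mul_assoc a, ← h01]
      calc g 1 * a = g 1 * (a * (b * a)) := by rw [h2, Matrix.mul_one]
        _ = g 1 * (a * b) * (g' 1 * g 1) * a := by
          rw [g2, Matrix.mul_one]; simp only [Matrix.mul_assoc]
        _ = _ := by simp only [Matrix.mul_assoc]
  refine ⟨r + l, ⟨_, _, hu, mul_eq_one_comm.1 hu⟩, ?_⟩
  have h3 := IsCl.cls (g := ⟨_, _, hu, mul_eq_one_comm.1 hu⟩) H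
  rw [hE, K0.cls_sum hq (idemOne _), K0.cls_one] at h3
  rw [K0.cls_one]
  simp only [Fintype.card_fin] at h3 ⊢
  push_cast at h3
  linear_combination -h3

theorem exists_dL_cs [CompleteSpace A] (y : KC (LA A)) :
    ∃ (r : ℕ) (g : (Matrix (Fin r) (Fin r) A)ˣ) (c : KC A), y = dL g + cs A c := by
  obtain ⟨r, g, h⟩ := exists_dL (y := y - cs A (e0 A y)) (by rw [map_sub, e0_cs, sub_self])
  exact ⟨r, g, e0 A y, by rw [h, sub_add_cancel]⟩

theorem isCl_tw {e : Matrix l l (LA A)} {u : Matrix n n A} (H : IsCl e u) {q : Matrix k k A}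
    (hq : q * q = q) : IsCl (fromBlocks (e ⊗ₖ q.map (LA.cst (A := A))) 0 0
      ((1 : Matrix n n (LA A)) ⊗ₖ (1 - q.map (LA.cst (A := A))))) (tw u q) := by
  obtain ⟨a, b, ca, cb, hab, hba, h1⟩ := H
  refine ⟨fun s => fromRows (a s ⊗ₖ q) ((1 : Matrix n n A) ⊗ₖ (1 - q)),
    fun s => fromCols (b s ⊗ₖ q) ((1 : Matrix n n A) ⊗ₖ (1 - q)), ?_, ?_, fun s => ?_,
    fun s => (tw_fr hq _ _ (hba s)).2, ?_⟩
  · refine continuous_matrix ?_
    rintro (i | i) j
    · exact (continuous_kron ca continuous_const).matrix_elem i j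
    · exact continuous_const
  · refine continuous_matrix ?_
    rintro i (j | j)
    · exact (continuous_kron cb continuous_const).matrix_elem i j
    · exact continuous_const
  · rw [(tw_fr hq _ _ (hba s)).1, evL_fb, hab]
    have e1 := kron_map ((LA.ev s : LA A →ₐ[ℂ] A) : LA A →+* A) e (q.map (LA.cst (A := A)))
    have e2 := kron_map ((LA.ev s : LA A →ₐ[ℂ] A) : LA A →+* A) (1 : Matrix n n (LA A))
      (1 - q.map (LA.cst (A := A)))
    rw [mapOne, compl_map] at e2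
    exact congrArg₂ (fun x y => fromBlocks x 0 0 y) e1.symm e2.symm
  · have c1 : (1 - q) * q = 0 := by rw [Matrix.sub_mul, Matrix.one_mul, hq, sub_self]
    have c2 : q * (1 - q) = 0 := by rw [Matrix.mul_sub, Matrix.mul_one, hq, sub_self]
    have c3 : (1 - q) * (1 - q) = 1 - q := by rw [Matrix.mul_sub, c1, Matrix.mul_one, sub_zero]
    change fromRows (a 1 ⊗ₖ q) _ = fromRows (a 0 ⊗ₖ q) _ * _
    rw [h1, fromRows_mul, tw]
    simp only [Matrix.mul_add, ← mul_kronecker_mul, hq, c1, c2, c3, kronecker_zero, add_zero,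
      zero_add, Matrix.mul_one]

theorem dL_tw (g : (Matrix n n A)ˣ) {q : Matrix k k A} (hq : q * q = q)
    (G : (Matrix (n × k) (n × k) A)ˣ) (hG : G.val = tw g.val q) :
    dL G = dL g * cs A (K0.cls q) := by
  have H := isCl_tw (isCl_EL g) hq
  rw [← hG] at H
  have hq' := idem_cst hq
  have hc := K0.idem_compl hq'
  have h1 := K0.cls_compl hq'
  have h2 := H.cls
  rw [K0.cls_one] at h1
  rw [K0.cls_sum (K357.idem_kron (EL_idem g) hq') (K357.idem_kron (idemOne n) hc),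
    K0.cls_kron (EL_idem g) hq', K0.cls_kron (idemOne n) hc, K0.cls_one, (isCl_EL g).cls,
    Fintype.card_prod] at h2
  rw [ka_cls _ hq]
  push_cast at h2
  linear_combination -h2 + (Fintype.card n : KC (LA A)) * h1

variable (S : Bq P A B C)

theorem Bq.isOpenMap [CompleteSpace A] [CompleteSpace C] : IsOpenMap S.sq.al :=
  (⟨S.al.toLinearMap, S.ca⟩ : A →L[ℂ] C).isOpenMap S.sur

theorem Bq.sur' : Function.Surjective S.sq.al := S.sur

variable [CompleteSpace A] [CompleteSpace C]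

/-- homotopy invariance of the boundary map -/
theorem bd_path (c : I → Matrix n n C) (hc : Continuous c) (hu : ∀ t, IsUnit (c t)) :
    bd S.sq (c 0) = bd S.sq (c 1) := by
  obtain ⟨u, hu0⟩ := hu 0
  obtain ⟨v, hv1⟩ := hu 1
  have e1 : (v * u⁻¹).val * (u * v⁻¹).val = 1 := by rw [← Units.val_mul]; simp
  have e2 : (u * v⁻¹).val * (v * u⁻¹).val = 1 := by rw [← Units.val_mul]; simp
  obtain ⟨U, V, h1, h2, h3, -⟩ := lift_of_path S.isOpenMap (fun t => c t * (u⁻¹).val)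
    (hc.matrix_mul continuous_const) (fun t => (hu t).mul (u⁻¹).isUnit)
    (by simp only [← hu0, Units.mul_inv]) e1 e2 (by simp only [← hv1, Units.val_mul])
  have e3 := bd_frame S.sur' (isUnit_one (M := Matrix n n C)) ⟨⟨U, V, h1, h2⟩, rfl⟩
    (isUnit_one (M := Matrix n n B))
  rw [mapOne, Matrix.one_mul, Matrix.one_mul, h3, bd_one S.sur'] at e3
  have e4 := bd_mul S.sur' (v * u⁻¹).isUnit u.isUnit
  rw [e3, zero_add, ← Units.val_mul, inv_mul_cancel_right] at e4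
  rw [← hu0, ← hv1, e4]

theorem bd_of_dL (g : (Matrix n n C)ˣ) (h : (Matrix m m C)ˣ) (H : dL g = dL h) :
    bd S.sq g.val = bd S.sq h.val := by
  have H' : dL (usum g (1 : (Matrix m m C)ˣ)) = dL (usum (1 : (Matrix n n C)ˣ) h) := by
    rw [dL_sum, dL_sum, dL_one, dL_one, H, add_zero, zero_add]
  obtain ⟨M, c, hc, hu, h0, h1⟩ := joined_of_dL _ _ H'
  have e := bd_path S c hc hu
  have i1 : ∀ G : (Matrix (n ⊕ m) (n ⊕ m) C)ˣ, bd S.sq (fromBlocks (fromBlocks G.val 0 0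
      (1 : Matrix (Fin M) (Fin M) C)) 0 0 (1 : Matrix ((n ⊕ m) ⊕ Fin M) ((n ⊕ m) ⊕ Fin M) C)) =
      bd S.sq G.val := fun G => by
    have hG : IsUnit (fromBlocks G.val 0 0 (1 : Matrix (Fin M) (Fin M) C)) :=
      (usum G (1 : (Matrix (Fin M) (Fin M) C)ˣ)).isUnit
    rw [bd_sum S.sur' hG isUnit_one, bd_sum S.sur' G.isUnit isUnit_one,
      bd_one S.sur', bd_one S.sur', add_zero, add_zero]
  rw [h0, h1, i1, i1] at e
  have e1 := bd_sum S.sur' g.isUnit (isUnit_one (M := Matrix m m C))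
  have e2 := bd_sum S.sur' (isUnit_one (M := Matrix n n C)) h.isUnit
  rw [bd_one S.sur'] at e1 e2
  rw [add_zero] at e1
  rw [zero_add] at e2
  rw [← e1, ← e2]
  exact e

/-- the boundary map, as a function -/
def dl0 (y : KC (LA C)) : KC P :=
  bd S.sq (exists_dL_cs y).choose_spec.choose.val

theorem dl0_eq (g : (Matrix n n C)ˣ) (c : KC C) : dl0 S (dL g + cs C c) = bd S.sq g.val := by
  obtain ⟨c', h⟩ := (exists_dL_cs (dL g + cs C c)).choose_spec.choose_spec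
  have h1 := congrArg (e0 C) h
  rw [map_add, map_add, e0_dL, e0_dL, e0_cs, e0_cs, zero_add, zero_add] at h1
  rw [← h1] at h
  exact (bd_of_dL S _ _ (add_right_cancel h)).symm

/-- the boundary map -/
def dl : KC (LA C) →+ KC P := AddMonoidHom.mk' (dl0 S) fun y y' => by
  obtain ⟨r, g, c, rfl⟩ := exists_dL_cs y
  obtain ⟨r', g', c', rfl⟩ := exists_dL_cs y'
  rw [add_add_add_comm, ← dL_sum, ← map_add, dl0_eq, dl0_eq, dl0_eq]
  exact bd_sum S.sur' g.isUnit g'.isUnit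

theorem dl_eq (g : (Matrix n n C)ˣ) (c : KC C) : dl S (dL g + cs C c) = bd S.sq g.val :=
  dl0_eq S g c

theorem dl_dL (g : (Matrix n n C)ˣ) : dl S (dL g) = bd S.sq g.val := by
  rw [← dl_eq S g 0, map_zero, add_zero]

theorem dl_cs (c : KC C) : dl S (cs C c) = 0 := by
  have := dl_eq S (1 : (Matrix Unit Unit C)ˣ) c
  rwa [dL_one, zero_add, Units.val_one, bd_one S.sur'] at this

theorem p1_dl (y : KC (LA C)) : KA S.p1 (dl S y) = 0 := by
  obtain ⟨r, g, c, rfl⟩ := exists_dL_cs y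
  rw [dl_eq]; exact p1_bd S.sur' g.isUnit

theorem p2_dl (y : KC (LA C)) : KA S.p2 (dl S y) = 0 := by
  obtain ⟨r, g, c, rfl⟩ := exists_dL_cs y
  rw [dl_eq]; exact p2_bd S.sur' g.isUnit

theorem exists_dl {x : KC P} (h1 : KA S.p1 x = 0) (h2 : KA S.p2 x = 0) : ∃ y, dl S y = x := by
  obtain ⟨r, _, ⟨g, rfl⟩, h⟩ := exists_bd S.sur' h1 h2
  exact ⟨dL g, (dl_dL S g).trans h⟩

theorem Bq.mid {a : KC A} {b : KC B} (h : KA S.al a = KA S.be b) :
    ∃ x : KC P, KA S.p1 x = a ∧ KA S.p2 x = b := S.sq.K0_mid S.sur' h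

theorem Bq.ka_comm (x : KC P) : KA S.al (KA S.p1 x) = KA S.be (KA S.p2 x) :=
  ka_sq _ _ _ _ S.comm x

theorem dl_mul (y : KC (LA C)) (z : KC P) :
    dl S (y * cs C (KA S.be (KA S.p2 z))) = dl S y * z := by
  obtain ⟨r, g, c, rfl⟩ := exists_dL_cs y
  have key : ∀ (j : ℕ) (q : Matrix (Fin j) (Fin j) P), q * q = q →
      dl S ((dL g + cs C c) * cs C (KA S.be (KA S.p2 (K0.cls q)))) =
        dl S (dL g + cs C c) * K0.cls q := fun j q hq => by
    have hq2 := K357.idem_map S.sq.p2 hq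
    have hq3 := K357.idem_map S.sq.be hq2
    obtain ⟨⟨G, hG⟩, h⟩ := bd_tw S.sur' g.isUnit hq
    have e : KA S.be (KA S.p2 (K0.cls q)) = K0.cls ((q.map S.sq.p2).map S.sq.be) := by
      rw [ka_cls _ hq]; exact ka_cls _ hq2
    rw [e, add_mul, ← dL_tw g hq3 G hG, ← map_mul, dl_eq, dl_eq, hG, h]
  induction z using K0.ind with
  | _ j j' q q' hq hq' =>
    rw [map_sub, map_sub, map_sub, mul_sub, map_sub, key _ _ hq, key _ _ hq', mul_sub]

theorem dl_al (a : KC (LA A)) : dl S (KL S.al S.ca a) = 0 := by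
  obtain ⟨r, g, c, rfl⟩ := exists_dL_cs a
  rw [map_add, KL_dL, KL_cs, dl_eq]
  have e3 := bd_frame S.sur' (isUnit_one (M := Matrix (Fin r) (Fin r) C)) g.isUnit
    (isUnit_one (M := Matrix (Fin r) (Fin r) B))
  rw [mapOne, Matrix.one_mul, Matrix.one_mul, bd_one S.sur'] at e3
  exact e3

theorem dl_be [CompleteSpace B] (b : KC (LA B)) : dl S (KL S.be S.cb b) = 0 := by
  obtain ⟨r, g, c, rfl⟩ := exists_dL_cs b
  rw [map_add, KL_dL, KL_cs, dl_eq]
  have e3 := bd_frame S.sur' (isUnit_one (M := Matrix (Fin r) (Fin r) C))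
    (isUnit_one (M := Matrix (Fin r) (Fin r) A)) g.isUnit
  rw [mapOne, Matrix.mul_one, Matrix.mul_one, bd_one S.sur'] at e3
  exact e3

/-- exactness at `K (LA C)` -/
theorem of_dl {y : KC (LA C)} (h : dl S y = 0) :
    ∃ a b c, y = KL S.al S.ca a + KL S.be S.cb b + cs C c := by
  obtain ⟨r, g, c, rfl⟩ := exists_dL_cs y
  rw [dl_eq] at h
  obtain ⟨j, _, _, ⟨u, rfl⟩, ⟨v, rfl⟩, e⟩ := of_bd_eq_zero S.sur' g.isUnit h
  refine ⟨dL u, dL v, c, ?_⟩
  have : usum g (1 : (Matrix (Fin j) (Fin j) C)ˣ) = umap S.be v * umap S.al u := Units.ext e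
  rw [KL_dL, KL_dL, add_comm (dL (umap S.al u)), ← dL_mul, ← this, dL_sum, dL_one, add_zero]

variable {P' A' B' C' : Type} [NormedCommRing P'] [NormedAlgebra ℂ P'] [NormedCommRing A']
  [NormedAlgebra ℂ A'] [NormedCommRing B'] [NormedAlgebra ℂ B'] [NormedCommRing C']
  [NormedAlgebra ℂ C'] [CompleteSpace A'] [CompleteSpace C'] {S} {S' : Bq P' A' B' C'}

/-- the underlying morphism of squares of rings -/
def BqH.sqH (F : BqH S S') : SqH S.sq S'.sq := ⟨F.fP, F.fA, F.fB, F.fC, F.h1, F.h2, F.ha, F.hb⟩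

theorem dl_nat (F : BqH S S') (y : KC (LA C)) :
    KA F.fP (dl S y) = dl S' (KL F.fC F.cC y) := by
  obtain ⟨r, g, c, rfl⟩ := exists_dL_cs y
  rw [dl_eq, map_add, KL_dL, KL_cs, dl_eq]
  exact map_bd F.sqH S.sur' S'.sur' g.isUnit

theorem KL_KL {R T : Type} [NormedCommRing R] [NormedAlgebra ℂ R] [NormedCommRing T]
    [NormedAlgebra ℂ T] (p : R →ₐ[ℂ] T) (hp : Continuous p) (s : T →ₐ[ℂ] R) (hs : Continuous s)
    (h : ∀ x, s (p x) = x) (y : KC (LA R)) : KL s hs (KL p hp y) = y :=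
  ka_ka_id _ _ (fun _ => LA.ext fun _ => h _) y

theorem KL_sq {R T R' T' : Type} [NormedCommRing R] [NormedAlgebra ℂ R] [NormedCommRing T]
    [NormedAlgebra ℂ T] [NormedCommRing R'] [NormedAlgebra ℂ R'] [NormedCommRing T']
    [NormedAlgebra ℂ T'] (g : T →ₐ[ℂ] T') (hg : Continuous g) (f : R →ₐ[ℂ] T) (hf : Continuous f)
    (g' : R' →ₐ[ℂ] T') (hg' : Continuous g') (f' : R →ₐ[ℂ] R') (hf' : Continuous f')
    (h : ∀ x, g (f x) = g' (f' x)) (y : KC (LA R)) : KL g hg (KL f hf y) = KL g' hg' (KL f' hf' y) :=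
  ka_sq _ _ _ _ (fun _ => LA.ext fun _ => h _) y

/-- a class is basic plus a multiple of the Thom class -/
theorem Bj.split {R T : Type} [CommRing R] [CommRing T] [Algebra ℂ R] [Algebra ℂ T]
    {p : R →ₐ[ℂ] T} {s : T →ₐ[ℂ] R} {l : KC T} (H : Bj p s l) (h : ∀ x, s (p x) = x) (x : KC T) :
    ∃ a, x = KA p (KA s x) + KA p a * l := by
  obtain ⟨a, ha⟩ := H.2 (x - KA p (KA s x)) (by rw [map_sub, ka_ka_id s p h, sub_self])
  exact ⟨a, by rw [← ha, add_sub_cancel]⟩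

end

theorem five : FIVE := by
  intro P A B C P' A' B' C' _ _ _ _ _ _ _ _ _ _ _ _ _ _ _ _ _ _ _ _ _ S S' F G l gP gA gB gC hl
    HA HB HC
  have n1 : ∀ a, KA S'.p1 (KA F.fP a) = KA F.fA (KA S.p1 a) := ka_sq _ _ _ _ F.h1
  have n2 : ∀ a, KA S'.p2 (KA F.fP a) = KA F.fB (KA S.p2 a) := ka_sq _ _ _ _ F.h2
  have na : ∀ a, KA S'.al (KA F.fA a) = KA F.fC (KA S.al a) := ka_sq _ _ _ _ F.ha
  have nb : ∀ a, KA S'.be (KA F.fB a) = KA F.fC (KA S.be a) := ka_sq _ _ _ _ F.hb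
  have m1 : ∀ a, KA G.fA (KA S'.p1 a) = KA S.p1 (KA G.fP a) := fun a =>
    (ka_sq _ _ _ _ G.h1 a).symm
  have m2 : ∀ a, KA G.fB (KA S'.p2 a) = KA S.p2 (KA G.fP a) := fun a =>
    (ka_sq _ _ _ _ G.h2 a).symm
  have mb : ∀ a, KA G.fC (KA S'.be a) = KA S.be (KA G.fB a) := fun a =>
    (ka_sq _ _ _ _ G.hb a).symm
  have hl0 : KL G.fC G.cC (cs C' (KA S'.be (KA S'.p2 l))) = 0 := by
    rw [KL_cs, mb, m2, hl, map_zero, map_zero, map_zero]
  constructor
  · intro a ha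
    have a1 : KA S.p1 a = 0 := HA.1.1 _ (by rw [← n1, ← map_mul, ha, map_zero])
    have a2 : KA S.p2 a = 0 := HB.1.1 _ (by rw [← n2, ← map_mul, ha, map_zero])
    obtain ⟨b, rfl⟩ := exists_dl S a1 a2
    rw [dl_nat, ← dl_mul] at ha
    obtain ⟨α, β, γ, h⟩ := of_dl S' ha
    obtain ⟨α0, hα⟩ := HA.2.split (fun _ => LA.ext fun _ => gA _) α
    obtain ⟨β0, hβ⟩ := HB.2.split (fun _ => LA.ext fun _ => gB _) β
    obtain ⟨γ0, hγ⟩ := HC.1.split gC γ
    have la : ∀ y, KL S'.al S'.ca (KL F.fA F.cA y) = KL F.fC F.cC (KL S.al S.ca y) :=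
      KL_sq _ _ _ _ _ _ _ _ F.ha
    have lb : ∀ y, KL S'.be S'.cb (KL F.fB F.cB y) = KL F.fC F.cC (KL S.be S.cb y) :=
      KL_sq _ _ _ _ _ _ _ _ F.hb
    change α = KL F.fA F.cA (KL G.fA G.cA α) + KL F.fA F.cA α0 * _ at hα
    change β = KL F.fB F.cB (KL G.fB G.cB β) + KL F.fB F.cB β0 * _ at hβ
    generalize KL G.fA G.cA α = α1 at hα
    generalize KL G.fB G.cB β = β1 at hβ
    generalize KA G.fC γ = γ1 at hγ
    subst hα hβ hγ
    simp only [map_add, map_mul, la, lb, KL_cs, S'.ka_comm] at h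
    rw [← KL_cs F.fC F.cC, ← KL_cs F.fC F.cC] at h
    have h2 : KL F.fC F.cC (b - (KL S.al S.ca α0 + KL S.be S.cb β0 + cs C γ0)) *
        cs C' (KA S'.be (KA S'.p2 l)) =
        KL F.fC F.cC (KL S.al S.ca α1 + KL S.be S.cb β1 + cs C γ1) := by
      simp only [map_add, map_sub]
      linear_combination h
    have h3 := congrArg (KL G.fC G.cC) h2
    rw [map_mul, hl0, mul_zero, KL_KL _ _ _ _ gC] at h3
    rw [← h3, map_zero] at h2
    have h4 := sub_eq_zero.1 (HC.2.1 _ h2)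
    rw [h4, map_add, map_add, dl_al, dl_be, dl_cs, add_zero, add_zero]
  · intro x hx
    obtain ⟨a1, h1⟩ := HA.1.2 (KA S'.p1 x) (by rw [m1, hx, map_zero])
    obtain ⟨a2, h2⟩ := HB.1.2 (KA S'.p2 x) (by rw [m2, hx, map_zero])
    have h0 : KA S.al a1 = KA S.be a2 := by
      refine sub_eq_zero.1 (HC.1.1 _ ?_)
      have := S'.ka_comm x
      rw [h1, h2, map_mul, map_mul, na, nb, S'.ka_comm] at this
      rw [map_sub, sub_mul, this, sub_self]
    obtain ⟨a, rfl, rfl⟩ := S.mid h0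
    obtain ⟨y, hy⟩ := exists_dl S' (x := x - KA F.fP a * l)
      (by rw [map_sub, map_mul, n1, ← h1, sub_self]) (by rw [map_sub, map_mul, n2, ← h2, sub_self])
    obtain ⟨b, hb⟩ := HC.2.split (fun _ => LA.ext fun _ => gC _) y
    change y = KL F.fC F.cC (KL G.fC G.cC y) + KL F.fC F.cC b * _ at hb
    have e1 : dl S (KL G.fC G.cC y) = 0 := by
      rw [← dl_nat, hy, map_sub, map_mul, hx, hl, mul_zero, sub_self]
    refine ⟨a + dl S b, ?_⟩
    generalize KL G.fC G.cC y = y1 at hb e1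
    rw [hb, map_add, dl_mul, ← dl_nat, ← dl_nat, e1, map_zero, zero_add] at hy
    rw [map_add, add_mul, hy, add_sub_cancel]

end Crest.Agent.N218.Th
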