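import Crest.Agent.N218.Th.One
import Crest.Agent.N218.Th.Loc
import Crest.Agent.N218.Th.Mv
import Crest.Agent.N218.Th.Base
import Crest.Agent.N218.K.Cp2

/-!
# Row 218, block D0 (helper72): the Thom isomorphism for line bundles, unconditionally
-/

set_option autoImplicit false

namespace Crest.Agent.N218.K

/-- **the Thom isomorphism for one character** -/
theorem thom : THOM1 := fun _ _ _ _ _ _ hχ h => Th.thom1 (Th.loc Th.five) Th.base hχ h

end Crest.Agent.N218.K

namespace Crest.Agent.N218.Th

theorem loc' : LOC := loc five

theorem thom : K.THOM1 := K.thom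

end Crest.Agent.N218.Th
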