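import Crest.Agent.N218.Th.Gl
import Crest.Agent.N218.K.Rel
import Crest.Agent.R204.BottFin_369

/-!
# Row 218, D0 (helper25): Bott periodicity for a square over `C(S¹, R)` (algebraic form)
-/

set_option autoImplicit false
set_option linter.unusedSectionVars false
set_option linter.unusedSimpArgs false

open Matrix
open Crest.Agent.R204 Crest.Agent.R204.Ex837
open Crest.Agent.R204.K357 (K0)
open Crest.Agent.R204.Bott671 (Conn pl cM zc zi Lam evHom)
open Crest.Agent.N218.K

namespace Crest.Agent.N218.Th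

noncomputable section

section gen

variable {P A B C : Type} [CommRing P] [CommRing A] [CommRing B] [CommRing C] {S : Sq P A B C}
variable {n m k : Type} [Fintype n] [DecidableEq n] [Fintype m] [DecidableEq m]
  [Fintype k] [DecidableEq k]

theorem IsG.sub {e : Matrix k k P} {u : Matrix n n C} (H : IsG S e u) (σ : m ≃ n) :
    IsG S e (u.submatrix σ σ) := by
  obtain ⟨a, a', b, b', h1, h2, h3, h4, h5⟩ := H
  refine ⟨a.submatrix id σ, a'.submatrix σ id, b.submatrix id σ, b'.submatrix σ id, ?_, ?_, ?_,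
    ?_, ?_⟩
  · rw [submatrix_mul_equiv, submatrix_id_id, h1]
  · rw [← submatrix_mul _ _ _ id _ Function.bijective_id, h2, submatrix_one_equiv]
  · rw [submatrix_mul_equiv, submatrix_id_id, h3]
  · rw [← submatrix_mul _ _ _ id _ Function.bijective_id, h4, submatrix_one_equiv]
  · rw [← submatrix_map, ← submatrix_map, submatrix_mul_equiv, h5]

theorem bd_sub (hal : Function.Surjective S.al) {u : Matrix n n C} (hu : IsUnit u) (σ : m ≃ n) :
    bd S (u.submatrix σ σ) = bd S u := by
  obtain ⟨e, he⟩ := exists_isG hal hu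
  rw [(he.sub σ).cls hal, he.cls hal, Fintype.card_congr σ]

end gen

section top

variable {P A B C : Type} [CommRing P] [NormedCommRing A] [CompleteSpace A] [CommRing B]
  [NormedCommRing C] [CompleteSpace C] {S : Sq P A B C} {n : Type} [Fintype n] [DecidableEq n]

theorem bd_conn (hal : Function.Surjective S.al) (ho : IsOpenMap S.al) {u v : Matrix n n C}
    (h : Conn u v) : bd S u = bd S v := by
  have hu := h.left
  obtain ⟨⟨u, w, uw, wu⟩, rfl⟩ := hu
  have hw : IsUnit w := ⟨⟨w, u, wu, uw⟩, rfl⟩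
  have h1 := (Conn.refl hw).mul h
  obtain ⟨⟨y, y', yy, yy'⟩, hy⟩ := h1.right
  obtain ⟨γ, hγ⟩ := h1
  obtain ⟨U, V, e1, e2, e3, -⟩ := lift_of_path ho γ γ.continuous hγ (γ.source.trans wu) yy yy'
    (γ.target.trans hy.symm)
  have := bd_frame hal h.left (c := U) (d := 1) ⟨⟨U, V, e1, e2⟩, rfl⟩ isUnit_one
  have hy' : y = w * v := hy
  rw [mapOne, Matrix.one_mul, e3, hy', ← Matrix.mul_assoc] at this
  have e : u * w * v = v := by rw [uw, Matrix.one_mul]
  exact this.symm.trans (congrArg (bd S) e)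

end top

variable {R : Type} [NormedCommRing R] [NormedAlgebra ℂ R] [CompleteSpace R]
  {P A B : Type} [CommRing P] [NormedCommRing A] [CompleteSpace A] [CommRing B]

/-- the hypotheses of the algebraic Bott theorem -/
structure BH (S : Sq P A B C(Circle, R)) (π : R →+* P) : Prop where
  sur : Function.Surjective S.al
  op : IsOpenMap S.al
  cst : ∀ r, S.be (S.p2 (π r)) = ContinuousMap.const _ r
  ca : ∀ (n : Type) [Fintype n] [DecidableEq n] (c : Matrix n n A), IsUnit c →
    ∃ k : Matrix n n R, Conn (c.map S.al) (cM k)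
  cb : ∀ (n : Type) [Fintype n] [DecidableEq n] (c : Matrix n n B), IsUnit c →
    ∃ k : Matrix n n R, Conn (c.map S.be) (cM k)

/-- the Bott class -/
def bott (S : Sq P A B C(Circle, R)) : KC P :=
  bd S ((zc : C(Circle, R)) • (1 : Matrix Unit Unit C(Circle, R)))

variable {S : Sq P A B C(Circle, R)} {π : R →+* P} {n : Type} [Fintype n] [DecidableEq n]

theorem isUnit_z (n : Type) [Fintype n] [DecidableEq n] :
    IsUnit ((zc : C(Circle, R)) • (1 : Matrix n n C(Circle, R))) :=
  IsUnit.of_mul_eq_one ((zi : C(Circle, R)) • 1) (by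
    rw [smul_mul_smul_comm, Bott671.zc_mul_zi, one_smul, Matrix.mul_one])

theorem pl_lam (p : Matrix n n R) : pl (1 - p) p = Lam p := by rw [Lam, pl, add_comm]

namespace BH
variable (H : BH S π)
include H

theorem cM_eq (p : Matrix n n R) : ((p.map π).map S.p2).map S.be = cM p := by
  ext i j z
  simp [cM, H.cst]

theorem bd_cM {c : Matrix n n R} (hc : IsUnit c) : bd S (cM c) = 0 := by
  have := bd_frame H.sur (isUnit_one (M := Matrix n n C(Circle, R))) (c := 1)
    (d := (c.map π).map S.p2) isUnit_one ((hc.map π.mapMatrix).map S.p2.mapMatrix)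
  rwa [mapOne, Matrix.mul_one, Matrix.mul_one, H.cM_eq, bd_one H.sur] at this

theorem bd_lam {p : Matrix n n R} (hp : p * p = p) :
    bd S (Lam p) = KR π (K0.cls p) * bott S := by
  obtain ⟨h1, h2⟩ := bd_tw H.sur (isUnit_z (R := R) Unit) (K357.idem_map π hp)
  rw [H.cM_eq] at h1 h2
  have e : Lam p = (tw ((zc : C(Circle, R)) • (1 : Matrix Unit Unit C(Circle, R)))
      (cM p)).submatrix (Equiv.uniqueProd n Unit).symm (Equiv.uniqueProd n Unit).symm := by
    rw [Lam, Bott671.cM_sub, Bott671.cM_one]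
    ext i j : 2
    simp [tw]
  rw [e, bd_sub H.sur h1, h2, mul_comm]
  congr 1
  exact (K0.map_cls π hp).symm

theorem bd_pow (N : ℕ) : IsUnit ((zc : C(Circle, R)) ^ N • (1 : Matrix n n C(Circle, R))) ∧
    bd S ((zc : C(Circle, R)) ^ N • (1 : Matrix n n C(Circle, R))) =
      ((N * Fintype.card n : ℕ) : KC P) * bott S := by
  induction N with
  | zero => simpa using bd_one H.sur
  | succ N ih =>
    have e : (zc : C(Circle, R)) ^ (N + 1) • (1 : Matrix n n C(Circle, R)) =
        ((zc : C(Circle, R)) ^ N • 1) * ((zc : C(Circle, R)) • 1) := by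
      rw [smul_mul_smul_comm, Matrix.mul_one, pow_succ]
    have e2 : (zc : C(Circle, R)) • (1 : Matrix n n C(Circle, R)) = Lam 1 := by
      rw [Lam, sub_self, Bott671.cM_zero, Bott671.cM_one, add_zero]
    rw [e]
    refine ⟨ih.1.mul (isUnit_z n), ?_⟩
    rw [bd_mul H.sur ih.1 (isUnit_z n), ih.2, e2, H.bd_lam (idemOne n), K0.cls_one, map_natCast]
    push_cast
    ring

/-- surjectivity -/
theorem surj {x : KC P} (h1 : KR S.p1 x = 0) (h2 : KR S.p2 x = 0) :
    ∃ a : KC R, x = KR π a * bott S := by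
  obtain ⟨r, u, hu, rfl⟩ := exists_bd H.sur h1 h2
  obtain ⟨N, k, _, _, p, c, hp, hc, h⟩ := BottK369.loopS R _ u hu
  have e := bd_conn H.sur H.op h
  obtain ⟨z1, z2⟩ := H.bd_pow (n := Fin r) N
  have e1 : (zc : C(Circle, R)) ^ N • u = ((zc : C(Circle, R)) ^ N • 1) * u := by
    rw [smul_mul_assoc, Matrix.one_mul]
  rw [e1, bd_sum H.sur (z1.mul hu) isUnit_one, bd_one H.sur, add_zero, bd_mul H.sur z1 hu, z2,
    pl_lam, bd_mul H.sur (Bott671.isUnit_Lam hp) (Bott671.isUnit_cM hc), H.bd_cM hc, add_zero,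
    H.bd_lam hp] at e
  refine ⟨K0.cls p - ((N * Fintype.card (Fin r) : ℕ) : KC R), ?_⟩
  rw [map_sub, map_natCast, sub_mul, ← e]
  ring

omit H in
theorem lam_sum {m : Type} [Fintype m] [DecidableEq m] (p : Matrix n n R) :
    Lam (fromBlocks p 0 0 (0 : Matrix m m R)) = fromBlocks (Lam p) 0 0 1 := by
  ext (i | i) (j | j) z <;> simp [Lam, cM, Matrix.one_apply, apply_ite]

theorem cls_eq {p q : Matrix n n R} (hp : p * p = p) (hq : q * q = q)
    (h : bd S (Lam p) = bd S (Lam q)) : K0.cls p = K0.cls q := by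
  obtain ⟨⟨L, w, Lw, wL⟩, hL⟩ := Bott671.isUnit_Lam hq
  obtain rfl : L = Lam q := hL
  have hw : IsUnit w := ⟨⟨w, _, wL, Lw⟩, rfl⟩
  have hu := (Bott671.isUnit_Lam hp).mul hw
  have e0 : Lam p * w * Lam q = Lam p := by rw [Matrix.mul_assoc, wL, Matrix.mul_one]
  have e1 := bd_mul H.sur hu (Bott671.isUnit_Lam hq)
  rw [e0, h, right_eq_add] at e1
  obtain ⟨r, c, d, hc, hd, e⟩ := of_bd_eq_zero H.sur hu e1
  obtain ⟨k1, c1⟩ := H.ca _ c hc
  obtain ⟨k2, c2⟩ := H.cb _ d hd
  have c3 := c2.mul c1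
  rw [← e, ← Bott671.cM_mul] at c3
  have ev : ∀ q : Matrix n n R, (Lam q).map (evHom (1 : Circle)) = 1 := fun q => by
    ext i j
    simp [Lam, cM, evHom]
  have ew : w.map (evHom (1 : Circle)) = 1 := by
    have := congrArg (fun M => Matrix.map M (evHom (R := R) (1 : Circle))) Lw
    simpa only [Matrix.map_mul, ev, Matrix.one_mul, mapOne] using this
  have c4 := (c3.map (evHom (1 : Circle)) (continuous_eval_const _)).map
    (ContinuousMap.C (α := Circle) : R →+* C(Circle, R)) ContinuousMap.continuous_const'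
  simp only [RingHom.mapMatrix_apply] at c4
  rw [fb_map, Matrix.map_mul, ev, ew, mapOne, Matrix.one_mul, fromBlocks_one, mapOne] at c4
  have c5 : Conn (fromBlocks (Lam p * w) 0 0 (1 : Matrix (Fin r) (Fin r) C(Circle, R))) 1 :=
    c3.trans c4.symm
  have c6 := c5.mul (Conn.refl (Bott671.isUnit_fromBlocks_diag (Bott671.isUnit_Lam hq)
    (isUnit_one (M := Matrix (Fin r) (Fin r) C(Circle, R)))))
  rw [Matrix.one_mul, fromBlocks_multiply] at c6
  simp only [e0, Matrix.mul_zero, Matrix.zero_mul, add_zero, zero_add, Matrix.mul_one] at c6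
  rw [← lam_sum, ← lam_sum, ← pl_lam, ← pl_lam] at c6
  have := BottK369.loopI R _ _ _ (K357.idem_sum hp (idemZero _)) (K357.idem_sum hq (idemZero _)) c6
  rwa [cls_dsum_zero hp, cls_dsum_zero hq] at this

/-- injectivity -/
theorem inj {a : KC R} (h : KR π a * bott S = 0) : a = 0 := by
  obtain ⟨j, r, p, hp, rfl⟩ := K0.exists_rep_one a
  have h1 := K357.idem_sum hp (idemZero (A := R) (Fin r))
  have h2 := K357.idem_sum (idemZero (A := R) (Fin j)) (idemOne (Fin r))
  have e1 := cls_dsum_zero (J := Fin r) hp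
  have e2 := cls_zero_dsum (A := R) (J := Fin j) (idemOne (Fin r))
  rw [sub_eq_zero, ← e1, ← e2]
  refine H.cls_eq h1 h2 ?_
  rw [H.bd_lam h1, H.bd_lam h2, e1, e2, ← sub_eq_zero, ← sub_mul, ← map_sub]
  exact h

end BH

end

end Crest.Agent.N218.Th
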