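import Crest.Agent.N218.Th.Defs
import Crest.Agent.N218.K.Lam1

/-! Row 218, D0 (helper72): the Thom isomorphism for one character -/

set_option autoImplicit false

open Crest.Agent.R204.K357 (K0)
open Crest.Agent.N218.K OnePoint ComplexConjugate Set

namespace Crest.Agent.N218.Th

noncomputable section

variable {X : Type} [TopologicalSpace X] {B : Ex X} {l : KX B.E}

theorem th_neg (h : B.Th l) : B.Th (-l) := by
  refine ⟨by rw [Ex.Rd, map_neg, h.1, neg_zero], fun x hx => ?_⟩
  obtain ⟨a, h1, h2⟩ := h.2 x hx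
  refine ⟨-a, by simpa [Ex.sm] using h1, fun b k => neg_eq_iff_eq_neg.1 (h2 (-b) ?_)⟩
  simpa [Ex.sm] using k

theorem Un.th [CompactSpace X] [T2Space X] (h : Un B l univ) : B.Th l := by
  have := h X B (.id X) ⟨.id _, fun _ => rfl, fun _ => rfl⟩
    ⟨fun _ _ _ e => e, fun _ b e => ⟨b, e.symm, rfl⟩⟩ fun _ => trivial
  rwa [pull_id] at this

theorem Un.cover (hL : LOC) (r : B.Rd l) (h0 : Un B l ∅) {J : Type} (S : J → Set X)
    (c : ∀ j, IsClosed (S j)) (h : ∀ j, Un B l (S j)) (s : Finset J) : Un B l (⋃ j ∈ s, S j) := by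
  classical
  induction s using Finset.induction_on with
  | empty => simpa using h0
  | insert j s _ ih =>
    rw [Finset.set_biUnion_insert]
    exact hL X B l _ _ r (c j) (isClosed_biUnion_finset fun j _ => c j) (h j) ih

/-- descent along a map from a compact space -/
theorem desc {P E T : Type} [TopologicalSpace P] [TopologicalSpace E] [TopologicalSpace T]
    [CompactSpace P] [T2Space E] [Nonempty T] {π : P → E} {ψ : P → T} (hπ : Continuous π)
    (hψ : Continuous ψ) (h : ∀ a b, π a = π b → ψ a = ψ b) :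
    ∃ φ : E → T, ContinuousOn φ (range π) ∧ ∀ a, φ (π a) = ψ a := by
  have e : ∀ a, Function.extend π ψ (fun _ => Classical.arbitrary T) (π a) = ψ a :=
    Function.FactorsThrough.extend_apply (fun a b => h a b) _
  refine ⟨_, continuousOn_iff_isClosed.2 fun C hC =>
    ⟨π '' (ψ ⁻¹' C), ((hC.preimage hψ).isCompact.image hπ).isClosed, ?_⟩, e⟩
  ext x
  refine ⟨?_, ?_⟩
  · rintro ⟨k, a, rfl⟩
    exact ⟨⟨a, by rwa [mem_preimage, e] at k, rfl⟩, a, rfl⟩
  · rintro ⟨⟨a, k, rfl⟩, -⟩
    exact ⟨by rwa [mem_preimage, e], a, rfl⟩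

/-- the Hopf projection -/
def e2 : Matrix Bool Bool C(OnePoint ℂ, ℂ)
  | true, true => al
  | true, false => star be
  | false, true => be
  | false, false => 1 - al

theorem al_mul (v : ℂ) : al v * (1 + v * conj v) = 1 := by
  rw [al_coe, Complex.mul_conj, Complex.normSq_eq_norm_sq]
  exact_mod_cast inv_mul_cancel₀ (nsq_pos v).ne'

theorem al_cj (v : ℂ) : conj (al v) = al v := Complex.conj_ofReal _

theorem be_sq (w : OnePoint ℂ) : be w * conj (be w) = al w * (1 - al w) := by
  induction w using OnePoint.rec with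
  | infty => simp [al_infty, be_infty]
  | coe v => rw [be_coe, map_mul, al_cj]; linear_combination al v * al_mul v

theorem e2_idem : e2 * e2 = e2 := by
  ext i j w
  have := be_sq w
  rw [mul_ap]
  cases i <;> cases j <;> simp [e2] <;> first | ring1 | linear_combination this

theorem un_e2 (hB : BASE) : Un S2 (kc e2 - 1 : KX (OnePoint ℂ)) univ := by
  have n : ∀ w : OnePoint ℂ, w ≠ ((0 : ℂ) : OnePoint ℂ) → 1 - al w ≠ 0 := fun w k => by
    induction w using OnePoint.rec with
    | infty => simp [al_infty]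
    | coe v =>
      have k : v ≠ 0 := fun e => k (by rw [e])
      rw [show 1 - al v = v * conj v * al v by linear_combination -al_mul v]
      exact mul_ne_zero (mul_ne_zero k ((map_ne_zero _).2 k)) (left_ne_zero_of_mul_eq_one (al_mul v))
  have c : Continuous fun v : ℂ => al v := al.continuous.comp continuous_coe
  refine hB Bool e2 (fun v t => cond t 1 v) (fun v t => cond t (al v) (conj v * al v))
    (fun w t => cond t (conj (be w) / (1 - al w)) 1) (fun w t => cond t (be w) (1 - al w))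
    (continuous_pi fun t => by cases t <;> simp only [cond] <;> fun_prop)
    (continuous_pi fun t => by cases t; exacts [Complex.continuous_conj.mul c, c])
    (continuousOn_pi.2 fun t => ?_)
    (Continuous.continuousOn (continuous_pi fun t => by cases t <;> simp only [cond] <;> fun_prop))
    (fun v i j => ?_) (fun v => ?_) (fun w k i j => ?_)
    (fun w k => ?_) (.inl fun v k => funext fun t => ?_)
  · cases t
    · exact continuousOn_const
    · exact ContinuousOn.div (by fun_prop) (by fun_prop) n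
  · cases i <;> cases j <;> simp [e2, be_coe, al_cj]
    linear_combination -al_mul v
  · simp only [Fintype.sum_bool, cond]; linear_combination al_mul v
  · have := n w k
    cases i <;> cases j <;> simp [e2] <;> field_simp
    linear_combination -be_sq w
  · have := n w k
    simp only [Fintype.sum_bool, cond]
    field_simp
    linear_combination be_sq w
  · have := n v fun e => k (coe_injective e)
    cases t <;> simp [be_coe, al_cj]
    field_simp
    linear_combination -al_mul v

/-- a local trivialisation -/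
theorem un_loc (hB : BASE) {I : Type} [Fintype I]
    {Q : Matrix (I ⊕ Unit) (I ⊕ Unit) C(B.E, ℂ)} (hQ : Q * Q = Q) {S : Set X} {T : Set B.E}
    {φ : B.E → OnePoint ℂ × (I → ℂ)} (c : ContinuousOn φ T) (hT : ∀ b, B.p b ∈ S → b ∈ T)
    (hs : ∀ x ∈ S, (φ (B.s x)).1 = ∞)
    (inj : ∀ b b', B.p b ∈ S → B.p b = B.p b' → (φ b).1 = (φ b').1 → b = b')
    (sur : ∀ x ∈ S, ∀ w, ∃ b, B.p b = x ∧ (φ b).1 = w) (un : ∀ b, B.p b ∈ S → Un1 (φ b).2)
    (e : ∀ b, B.p b ∈ S → ∀ i k, Q i k b = i.elim (φ b).2 (fun _ => 1) *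
      e2 i.isLeft k.isLeft (φ b).1 * conj (k.elim (φ b).2 fun _ => 1)) :
    Un B (1 - kc Q) S := by
  intro Z _ _ _ A g F hF hg
  have m : ∀ a, B.p (F.f a) ∈ S := fun a => F.hp a ▸ hg _
  have c' : Continuous fun a => φ (F.f a) := c.comp_continuous F.f.continuous fun a => hT _ (m a)
  let f : C(A.E, OnePoint ℂ) := ⟨fun a => (φ (F.f a)).1, c'.fst⟩
  have k : A.Th (-pull f (kc e2 - 1)) := th_neg (un_e2 hB Z A (.const _ ()) ⟨f, fun _ => rfl,
    fun z => (congrArg (fun b => (φ b).1) (F.hs z)).trans (hs _ (hg z))⟩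
    ⟨fun a a' p q => hF.1 a a' p (inj _ _ (m a) (by rw [F.hp, F.hp, p]) q), fun z w _ => by
      obtain ⟨b, p, q⟩ := sur _ (hg z) w
      obtain ⟨a, p', q'⟩ := hF.2 z b p.symm
      exact ⟨a, p', (congrArg (fun b => (φ b).1) q').trans q⟩⟩ fun _ => trivial)
  let U : I ⊕ Unit → C(A.E, ℂ) := fun i => ⟨fun a => i.elim (φ (F.f a)).2 fun _ => 1, by
    cases i
    · exact (continuous_apply _).comp c'.snd
    · exact continuous_const⟩
  have id := fun i j w => (mul_ap _ _ i j w).symm.trans (congrArg (fun M => M i j w) e2_idem)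
  convert k using 1
  rw [← map_neg, neg_sub, map_sub, map_sub, map_one, map_one, pull_kc _ hQ, pull_kc _ e2_idem]
  congr 1
  refine K0.cls_eq ?_ ?_ ⟨Matrix.of fun i t => U i * (e2 i.isLeft t).comp f,
    Matrix.of fun t i => (e2 t i.isLeft).comp f * star (U i), ?_, ?_⟩
  · ext i j a
    exact (mul_ap _ _ i j a).trans ((mul_ap Q Q i j (F.f a)).symm.trans
      (congrArg (fun M => M i j (F.f a)) hQ))
  · ext i j a
    exact (mul_ap _ _ i j a).trans (id i j _)
  · ext i j a
    refine (mul_ap _ _ i j a).trans (.trans ?_ (e _ (m a) i j).symm)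
    rw [← id, Finset.mul_sum, Finset.sum_mul]
    exact Finset.sum_congr rfl fun t _ => by simp [U, f, mul_assoc]
  · ext i j a
    refine (mul_ap _ _ i j a).trans (.trans ?_ (id i j (f a)))
    have := un _ (m a)
    rw [Fintype.sum_sum_type, Fintype.sum_bool, ← mul_one (_ * e2 true j _), ← this,
      Finset.mul_sum]
    congr 1
    · exact Finset.sum_congr rfl fun t _ => by simp [U, f]; ring
    · simp [U, f]

variable {Γ : Type} [Group Γ] [TopologicalSpace Γ] [CompactSpace Γ] {Y : GS Γ} {χ : Γ →* Circle}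

theorem un_sec (hB : BASE) (hχ : Continuous χ) (S : Sec Y χ) {W : Set Y.Z} (hW : IsClosed W)
    (c : W → Circle) (cc : Continuous c) (iv : ∀ g, ∀ y ∈ W, Y.act g y ∈ W)
    (eq : ∀ g (y y' : W), Y.act g y = y' → χ g * c y' = c y) :
    Un (Sb Y (ch χ hχ)) (1 - S.H hχ) (Y.pr '' W) := by
  have : CompactSpace W := isCompact_iff_compactSpace.1 hW.isCompact
  let m : W × ℂ → OnePoint ℂ := fun p => ((c p.1 * p.2 : ℂ) : OnePoint ℂ)
  have cm : Continuous (opx m) := continuous_opx (continuous_coe.comp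
    ((continuous_subtype_val.comp (cc.comp continuous_fst)).mul continuous_snd)) fun K hK => by
      obtain ⟨R, hR⟩ := hK.isBounded.subset_closedBall 0
      refine ⟨_, isCompact_closedBall 0 R, fun y w w' h e k => h ?_⟩
      have := hR k
      rwa [← coe_injective e, mem_closedBall_zero_iff, norm_mul, Circle.norm_coe, one_mul,
        ← mem_closedBall_zero_iff] at this
  have cp : Continuous fun z : W × OnePoint ℂ => pt Y (ch χ hχ) z.1 z.2 :=
    (Y.prod (ch χ hχ).sph).pr.continuous.comp (continuous_subtype_val.prodMap continuous_id)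
  obtain ⟨φ, c1, c2⟩ := desc (ψ := fun z => (opx m z, fun i => c z.1 * S.s z.1 i)) cp
    (cm.prodMk (continuous_pi fun i => (continuous_subtype_val.comp (cc.comp continuous_fst)).mul
      ((continuous_apply i).comp (S.s.continuous.comp continuous_fst.subtype_val))))
    fun ⟨y, w⟩ ⟨y', w'⟩ h => by
      obtain ⟨g, h⟩ := (Y.prod (ch χ hχ).sph).pr_eq.1 h
      have h1 : Y.act g y = y' := congrArg Prod.fst h
      obtain rfl : (ch χ hχ).sph.act g w = w' := congrArg Prod.snd h
      have h2 := congrArg (fun z : Circle => (z : ℂ)) (eq g y y' h1)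
      simp only [Circle.coe_mul] at h2
      refine Prod.ext ?_ (funext fun i => ?_)
      · induction w using OnePoint.rec with
        | infty => rfl
        | coe v => exact congrArg OnePoint.some (show _ = c y' * (χ g * v) by rw [← h2]; ring)
      · change _ = c y' * S.s y' i
        rw [← h1, S.eq, ← h2]; ring
  have sj : ∀ b, (Sb Y (ch χ hχ)).p b ∈ Y.pr '' W → ∃ (y : W) (w : OnePoint ℂ),
      pt Y (ch χ hχ) y w = b := fun b ⟨y, hy, e⟩ => by
    obtain ⟨y', w, rfl⟩ := pt_surj b
    obtain ⟨g, rfl⟩ := Y.pr_eq.1 e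
    exact ⟨⟨_, iv g y hy⟩, w, rfl⟩
  have oi : ∀ y : W, Function.Injective fun w => opx m (y, w) := fun y w w' e => by
    induction w using OnePoint.rec <;> induction w' using OnePoint.rec
    · rfl
    · cases e
    · cases e
    · exact congrArg _ (mul_left_cancel₀ (c y).coe_ne_zero (coe_injective e))
  refine un_loc hB (S.ln_H hχ).idem c1 (fun b k => let ⟨y, w, e⟩ := sj b k; ⟨(y, w), e⟩) ?_ ?_ ?_
    ?_ ?_
  · rintro _ ⟨y, hy, rfl⟩
    exact congrArg Prod.fst (c2 (⟨y, hy⟩, ∞))
  · intro b b' k p q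
    obtain ⟨y, w, rfl⟩ := sj b k
    obtain ⟨y', w', rfl⟩ := pt_surj b'
    obtain ⟨g, e⟩ := Y.pr_eq.1 (show Y.pr y' = Y.pr y from p.symm)
    have e' : pt Y (ch χ hχ) y ((ch χ hχ).sph.act g w') = pt Y (ch χ hχ) y' w' :=
      e ▸ (Y.prod (ch χ hχ).sph).pr_act g (y', w')
    rw [← e'] at q ⊢
    exact congrArg _ (oi y ((congrArg Prod.fst (c2 (y, w))).symm.trans
      (q.trans (congrArg Prod.fst (c2 (y, _))))))
  · rintro _ ⟨y, hy, rfl⟩ w
    induction w using OnePoint.rec with
    | infty => exact ⟨_, rfl, congrArg Prod.fst (c2 (⟨y, hy⟩, ∞))⟩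
    | coe v =>
      exact ⟨_, rfl, (congrArg Prod.fst (c2 (⟨y, hy⟩, (((c ⟨y, hy⟩ : ℂ)⁻¹ * v : ℂ) : OnePoint ℂ)))).trans
        (congrArg OnePoint.some (mul_inv_cancel_left₀ (c _).coe_ne_zero v))⟩
  · intro b k
    obtain ⟨y, w, rfl⟩ := sj b k
    rw [c2 (y, w)]
    exact (S.un y).smul _
  · intro b k
    obtain ⟨y, w, rfl⟩ := sj b k
    rw [c2 (y, w)]
    have a : al (opx m (y, w)) = al w ∧ be (opx m (y, w)) = c y * be w := by
      induction w using OnePoint.rec with
      | infty => exact ⟨rfl, (mul_zero _).symm⟩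
      | coe v =>
        have : al ((c y * v : ℂ) : OnePoint ℂ) = al v := by
          rw [al_coe, al_coe, norm_mul, Circle.norm_coe, one_mul]
        exact ⟨this, by rw [opx_coe, be_coe, be_coe, this, mul_assoc]⟩
    have u := circ_conj (c y)
    rintro (i | i) (j | j)
    · change al w * (S.s y i * conj (S.s y j)) = c y * S.s y i * al (opx m (y, w)) * conj (c y * S.s y j)
      rw [a.1, map_mul]; linear_combination (-al w * S.s y i * conj (S.s y j)) * u
    · change S.s y i * conj (be w) = c y * S.s y i * conj (be (opx m (y, w))) * conj 1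
      rw [a.2, map_mul, map_one]; linear_combination (-S.s y i * conj (be w)) * u
    · change conj (S.s y j * conj (be w)) = 1 * be (opx m (y, w)) * conj (c y * S.s y j)
      rw [a.2, map_mul, map_mul, Complex.conj_conj]
      linear_combination (-conj (S.s y j) * be w) * u
    · change 1 - al w = 1 * (1 - al (opx m (y, w))) * conj 1
      rw [a.1, map_one, one_mul, mul_one]

theorem un_lam1 (hL : LOC) (hB : BASE) (hχ : Continuous χ) (h : Nonempty (Sec Y χ)) :
    Un (Sb Y (ch χ hχ)) (lam1 Y χ hχ) univ := by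
  obtain ⟨S⟩ := h
  obtain ⟨ε, e0, e1⟩ : ∃ ε : ℝ, 0 < ε ∧ ∀ y, ∃ j, ε ≤ ‖S.s y‖ ∧ ‖S.s y‖ ≤ ‖S.s y j‖ := by
    have n : ∀ y, S.s y ≠ 0 := fun y e => by simpa [Un1, e] using S.un y
    obtain ⟨ε, e0, e1⟩ := isCompact_univ.exists_forall_le' (f := fun y => ‖S.s y‖)
      (by fun_prop) (a := 0) fun y _ => norm_pos_iff.2 (n y)
    refine ⟨ε, e0, fun y => ?_⟩
    by_contra k
    push Not at k
    exact ((pi_norm_lt_iff (norm_pos_iff.2 (n y))).2 fun j => k j (e1 y trivial)).false
  have cl : ∀ j, IsClosed {y | ε ≤ ‖S.s y j‖} := fun j => isClosed_le continuous_const (by fun_prop)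
  have := Un.cover hL (rd_lam1 hχ) (lam1_eq hχ S ▸ image_empty Y.pr ▸ un_sec hB hχ S isClosed_empty
    (fun _ => 1) continuous_const (fun _ _ k => k) fun _ y => y.2.elim)
    (fun j => Y.pr '' {y | ε ≤ ‖S.s y j‖}) (fun j => ((cl j).isCompact.image Y.pr.continuous).isClosed)
    (fun j => ?_) Finset.univ
  · refine fun Z _ _ _ A g F hF _ => this Z A g F hF fun z => ?_
    obtain ⟨y, e⟩ := Y.pr_surj (g z)
    obtain ⟨j, a, b⟩ := e1 y
    exact mem_biUnion (Finset.mem_univ j) ⟨y, a.trans b, e⟩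
  have n : ∀ y : {y | ε ≤ ‖S.s y j‖}, (‖S.s y j‖ : ℂ) ≠ 0 := fun y =>
    Complex.ofReal_ne_zero.2 (e0.trans_le y.2).ne'
  rw [lam1_eq hχ S]
  refine un_sec hB hχ S (cl j) (fun y => ⟨conj (S.s y j) / ‖S.s y j‖, ?_⟩) ?_ (fun g y k => ?_)
    fun g y y' e => Circle.ext ?_
  · simp [Submonoid.unitSphere, (e0.trans_le y.2).ne']
  · exact Continuous.subtype_mk (Continuous.div (by fun_prop) (by fun_prop) n) _
  · change ε ≤ _
    rwa [S.eq, norm_mul, Circle.norm_coe, one_mul]
  · change χ g * (conj (S.s y' j) / ‖S.s y' j‖) = conj (S.s y j) / ‖S.s y j‖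
    rw [← e, S.eq, norm_mul, Circle.norm_coe, one_mul, map_mul, ← mul_div_assoc, ← mul_assoc,
      circ_conj, one_mul]

/-- **the Thom isomorphism for one character** -/
theorem thom1 (hL : LOC) (hB : BASE) (hχ : Continuous χ) (h : Nonempty (Sec Y χ)) :
    (Sb Y (ch χ hχ)).Th (lam1 Y χ hχ) := (un_lam1 hL hB hχ h).th

end

end Crest.Agent.N218.Th
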